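import Mathlib

set_option autoImplicit false
open Finset

namespace Crest.Agent.R350

/-- the sign of a bit -/
def sg (b : Bool) : ℝ := if b then -1 else 1

@[simp] lemma sg_true : sg true = -1 := rfl
@[simp] lemma sg_false : sg false = 1 := rfl
lemma sg_sq (b : Bool) : sg b ^ 2 = 1 := by cases b <;> simp
lemma sg_mul_self (b : Bool) : sg b * sg b = 1 := by cases b <;> simp
lemma abs_sg (b : Bool) : |sg b| = 1 := by cases b <;> simp
lemma sg_not (b : Bool) : sg (!b) = - sg b := by cases b <;> simp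

/-- indicator of a bit -/
def ind (b : Bool) : ℝ := if b then 1 else 0

@[simp] lemma ind_true : ind true = 1 := rfl
@[simp] lemma ind_false : ind false = 0 := rfl
lemma ind_nonneg (b : Bool) : 0 ≤ ind b := by cases b <;> simp
lemma ind_le_one (b : Bool) : ind b ≤ 1 := by cases b <;> simp

section Ex
variable {ι Y : Type*} [Fintype ι] [DecidableEq ι] [Fintype Y]

/-- expectation under a product weight -/
noncomputable def Ex (p : ι → Y → ℝ) (G : (ι → Y) → ℝ) : ℝ := ∑ x : ι → Y, (∏ i, p i (x i)) * G x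

/-- probability vectors -/
def IsP (p : Y → ℝ) : Prop := (∀ y, 0 ≤ p y) ∧ ∑ y, p y = 1

lemma Ex_mono {p : ι → Y → ℝ} (hp : ∀ i, IsP (p i)) {G H : (ι → Y) → ℝ} (h : ∀ x, G x ≤ H x) :
    Ex p G ≤ Ex p H :=
  sum_le_sum fun x _ => mul_le_mul_of_nonneg_left (h x) (prod_nonneg fun i _ => (hp i).1 _)

lemma Ex_prod (p : ι → Y → ℝ) (g : ι → Y → ℝ) :
    Ex p (fun x => ∏ i, g i (x i)) = ∏ i, ∑ y, p i y * g i y := by
  rw [Ex, Finset.prod_univ_sum, Fintype.piFinset_univ]
  exact sum_congr rfl fun x _ => by rw [prod_mul_distrib]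

lemma Ex_const {p : ι → Y → ℝ} (hp : ∀ i, ∑ y, p i y = 1) (c : ℝ) : Ex p (fun _ => c) = c := by
  have := Ex_prod p (fun _ _ => 1)
  simp only [prod_const_one, mul_one, hp] at this
  simp only [Ex, mul_one] at this ⊢
  rw [← sum_mul, this, one_mul]

lemma Ex_add (p : ι → Y → ℝ) (G H : (ι → Y) → ℝ) :
    Ex p (fun x => G x + H x) = Ex p G + Ex p H := by
  simp [Ex, mul_add, sum_add_distrib]

lemma Ex_sub (p : ι → Y → ℝ) (G H : (ι → Y) → ℝ) :
    Ex p (fun x => G x - H x) = Ex p G - Ex p H := by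
  simp [Ex, mul_sub, sum_sub_distrib]

lemma Ex_mul (p : ι → Y → ℝ) (c : ℝ) (G : (ι → Y) → ℝ) :
    Ex p (fun x => c * G x) = c * Ex p G := by
  simp only [Ex, mul_sum]
  exact sum_congr rfl fun x _ => by ring

lemma Ex_sum {κ : Type*} (p : ι → Y → ℝ) (s : Finset κ) (G : κ → (ι → Y) → ℝ) :
    Ex p (fun x => ∑ a ∈ s, G a x) = ∑ a ∈ s, Ex p (G a) := by
  simp only [Ex, mul_sum]
  exact sum_comm

lemma Ex_abs_le {p : ι → Y → ℝ} (hp : ∀ i, IsP (p i)) {G : (ι → Y) → ℝ} {c : ℝ}
    (h : ∀ x, |G x| ≤ c) : |Ex p G| ≤ c := by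
  rw [abs_le]
  constructor
  · rw [← Ex_const (fun i => (hp i).2) (-c)]
    exact Ex_mono hp fun x => (abs_le.1 (h x)).1
  · rw [← Ex_const (fun i => (hp i).2) c]
    exact Ex_mono hp fun x => (abs_le.1 (h x)).2

/-- resampling one coordinate -/
lemma Ex_update (p : ι → Y → ℝ) (i : ι) (hp : ∑ y, p i y = 1) (D : Y → ℝ) (G : (ι → Y) → ℝ) :
    Ex (Function.update p i D) G = Ex p (fun x => ∑ y, D y * G (Function.update x i y)) := by
  classical
  have key : ∀ (q : ι → Y → ℝ) (H : (ι → Y) → ℝ), Ex q H = ∑ z : {j // j ≠ i} → Y,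
      (∏ j : {j // j ≠ i}, q j (z j)) * ∑ y, q i y * H ((Equiv.funSplitAt i Y).symm (y, z)) := by
    intro q H
    rw [Ex, ← (Equiv.funSplitAt i Y).symm.sum_comp, Fintype.sum_prod_type, sum_comm]
    refine sum_congr rfl fun z _ => ?_
    rw [mul_sum]
    refine sum_congr rfl fun y _ => ?_
    rw [Fintype.prod_eq_mul_prod_subtype_ne _ i]
    have : ∀ j : {j // j ≠ i}, (Equiv.funSplitAt i Y).symm (y, z) j = z j := fun j => by
      simp [Equiv.funSplitAt, Equiv.piSplitAt, j.2]
    simp only [this]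
    simp [Equiv.funSplitAt, Equiv.piSplitAt]
    ring
  have hu : ∀ (z : {j // j ≠ i} → Y) (y y' : Y),
      Function.update ((Equiv.funSplitAt i Y).symm (y', z)) i y
        = (Equiv.funSplitAt i Y).symm (y, z) := by
    intro z y y'
    funext j
    by_cases hj : j = i
    · subst hj; simp [Equiv.funSplitAt, Equiv.piSplitAt]
    · simp [Equiv.funSplitAt, Equiv.piSplitAt, hj]
  rw [key, key]
  refine sum_congr rfl fun z _ => ?_
  simp only [hu, Function.update_self]
  rw [← sum_mul, hp, one_mul]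
  congr 1
  exact prod_congr rfl fun j _ => by rw [Function.update_of_ne j.2]

lemma Ex_resample (p : ι → Y → ℝ) (i : ι) (hp : ∑ y, p i y = 1) (G : (ι → Y) → ℝ) :
    Ex p G = Ex p (fun x => ∑ y, p i y * G (Function.update x i y)) := by
  rw [← Ex_update p i hp, Function.update_eq_self]

end Ex

/-- decision trees of bounded depth, as a property of functions -/
inductive Dep {X ι : Type*} (rd : ι → X → Bool) : ℕ → (X → Bool) → Prop
  | const (d : ℕ) (b : Bool) : Dep rd d (fun _ => b)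
  | node (d : ℕ) (i : ι) (f0 f1 : X → Bool) : Dep rd d f0 → Dep rd d f1 →
      Dep rd (d + 1) (fun x => if rd i x then f1 x else f0 x)

lemma Dep.succ {X ι : Type*} {rd : ι → X → Bool} {d : ℕ} {f : X → Bool} (h : Dep rd d f) :
    Dep rd (d + 1) f := by
  induction h with
  | const d b => exact .const _ _
  | node d i f0 f1 _ _ h0 h1 => exact .node _ i _ _ h0 h1

lemma Dep.comp {X ι X' ι' : Type*} {rd : ι → X → Bool} {rd' : ι' → X' → Bool} (g : X' → X)
    (hg : ∀ i, (∃ b, ∀ x, rd i (g x) = b) ∨ ∃ i', ∀ x, rd i (g x) = rd' i' x)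
    {d : ℕ} {f : X → Bool} (h : Dep rd d f) : Dep rd' d (fun x => f (g x)) := by
  induction h with
  | const d b => exact .const _ _
  | node d i f0 f1 _ _ h0 h1 =>
    rcases hg i with ⟨b, hb⟩ | ⟨i', hi⟩
    · simp only [hb]
      cases b
      · simpa using h0.succ
      · simpa using h1.succ
    · simp only [hi]
      exact .node _ i' _ _ h0 h1

end Crest.Agent.R350
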