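import Crest.Agent.R350.Basic
import Crest.Prelude.Def_QueryComplexity

set_option autoImplicit false
set_option linter.unusedSectionVars false
open Finset Crest.MathPhysics.Query

namespace Crest.Agent.R350

variable {n : ℕ}

/-- the tree reads a position in `S` among its first `L` reads in `C` -/
def hit (C S : Fin n → Bool) : DTree n → ℕ → (Fin n → Bool) → Bool
  | .answer _, _, _ => false
  | .read i t0 t1, L, x =>
    if C i then (if L = 0 then false else
      (S i || if x i then hit C S t1 (L - 1) x else hit C S t0 (L - 1) x))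
    else (if x i then hit C S t1 L x else hit C S t0 L x)

/-- the number of reads in `C` -/
def cnt (C : Fin n → Bool) : DTree n → (Fin n → Bool) → ℕ
  | .answer _, _ => 0
  | .read i t0 t1, x => (if C i then 1 else 0) + if x i then cnt C t1 x else cnt C t0 x

lemma eval_eq_of_not_hit {C S : Fin n → Bool} {x y : Fin n → Bool}
    (h : ∀ i, ¬ (C i = true ∧ S i = true) → y i = x i) :
    ∀ (T : DTree n) (L : ℕ), cnt C T x ≤ L → hit C S T L x = false → T.eval y = T.eval x
  | .answer _, _, _, _ => rfl
  | .read i t0 t1, L, h1, h2 => by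
    simp only [cnt, hit] at h1 h2
    by_cases hC : C i = true
    · simp only [hC, if_true] at h1 h2
      rw [if_neg (by omega), Bool.or_eq_false_iff] at h2
      simp only [DTree.eval, h i (by simp [h2.1])]
      cases hx : x i <;> simp only [hx, if_true, Bool.false_eq_true, if_false] at h1 h2 ⊢
      · exact eval_eq_of_not_hit h t0 (L - 1) (by omega) h2.2
      · exact eval_eq_of_not_hit h t1 (L - 1) (by omega) h2.2
    · simp only [hC, Bool.false_eq_true, if_false, zero_add] at h1 h2
      simp only [DTree.eval, h i (by simp [hC])]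
      cases hx : x i <;> simp only [hx, if_true, Bool.false_eq_true, if_false] at h1 h2 ⊢
      · exact eval_eq_of_not_hit h t0 L h1 h2
      · exact eval_eq_of_not_hit h t1 L h1 h2

lemma hit_congr {C S : Fin n → Bool} {x y : Fin n → Bool}
    (h : ∀ i, ¬ (C i = true ∧ S i = true) → y i = x i) :
    ∀ (T : DTree n) (L : ℕ), hit C S T L y = hit C S T L x
  | .answer _, _ => rfl
  | .read i t0 t1, L => by
    simp only [hit, hit_congr h t0, hit_congr h t1]
    by_cases hC : C i = true ∧ S i = true
    · simp [hC.1, hC.2]
    · rw [h i hC]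

lemma sum_cnt {J : Type*} [Fintype J] [DecidableEq J] (col : Fin n → J) (x : Fin n → Bool) :
    ∀ T : DTree n, ∑ j, cnt (fun i => decide (col i = j)) T x ≤ T.depth
  | .answer _ => by simp [cnt]
  | .read i t0 t1 => by
    have h0 := sum_cnt col x t0
    have h1 := sum_cnt col x t1
    simp only [cnt, sum_add_distrib, DTree.depth, decide_eq_true_eq, sum_ite_eq, mem_univ, if_true]
    cases x i <;> simp only [if_true, Bool.false_eq_true, if_false] <;> omega

lemma sum_hit {A : Type*} [Fintype A] [DecidableEq A] (C : Fin n → Bool) (lab : Fin n → Option A)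
    (x : Fin n → Bool) : ∀ (T : DTree n) (L : ℕ),
    ∑ α, ind (hit C (fun i => decide (lab i = some α)) T L x) ≤ L
  | .answer _, L => by simp [hit]
  | .read i t0 t1, L => by
    simp only [hit]
    by_cases hC : C i = true
    · simp only [hC, if_true]
      rcases L with _ | L
      · simp
      · simp only [Nat.succ_ne_zero, if_false, Nat.add_sub_cancel]
        have h1 : ∑ α, ind (decide (lab i = some α)) ≤ 1 := by
          cases lab i <;> simp [ind]
        have h2 : ∑ α, ind (if x i then hit C (fun i => decide (lab i = some α)) t1 L x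
            else hit C (fun i => decide (lab i = some α)) t0 L x) ≤ L := by
          cases x i
          · exact sum_hit C lab x t0 L
          · exact sum_hit C lab x t1 L
        have h3 : ∀ a b, ind (a || b) ≤ ind a + ind b := fun a b => by
          cases a <;> cases b <;> simp
        refine (sum_le_sum fun α _ => h3 _ _).trans ?_
        rw [sum_add_distrib]
        push_cast
        linarith
    · simp only [hC, Bool.false_eq_true, if_false]
      cases x i
      · exact sum_hit C lab x t0 L
      · exact sum_hit C lab x t1 L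

lemma hit_dep {Ω κ : Type*} {rd : κ → Ω → Bool} {C S : Fin n → Bool} {base : Ω → Fin n → Bool}
    (h1 : ∀ i, C i = false → ∃ c, ∀ F, base F i = c)
    (h2 : ∀ i, (∃ c, ∀ F, base F i = c) ∨ ∃ a, ∀ F, base F i = rd a F) :
    ∀ (T : DTree n) (L : ℕ), Dep rd L (fun F => hit C S T L (base F))
  | .answer _, L => .const _ _
  | .read i t0 t1, L => by
    simp only [hit]
    cases hC : C i
    · obtain ⟨c, hc⟩ := h1 i hC
      simp only [hc, Bool.false_eq_true, if_false]
      cases c
      · exact hit_dep h1 h2 t0 L
      · exact hit_dep h1 h2 t1 L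
    · simp only [if_true]
      rcases L with _ | L
      · exact .const _ _
      · simp only [Nat.succ_ne_zero, if_false, Nat.add_sub_cancel]
        cases S i
        · simp only [Bool.false_or]
          rcases h2 i with ⟨c, hc⟩ | ⟨a, ha⟩
          · simp only [hc]
            cases c
            · exact (hit_dep h1 h2 t0 L).succ
            · exact (hit_dep h1 h2 t1 L).succ
          · simp only [ha]
            exact .node _ a _ _ (hit_dep h1 h2 t0 L) (hit_dep h1 h2 t1 L)
        · exact .const _ _

theorem lower_bound {J A Ω κ : Type} [Fintype J] [DecidableEq J] [Fintype A] [DecidableEq A]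
    [Nonempty A] [Fintype Ω] (rd : κ → Ω → Bool) (col : Fin n → J) (lab : Fin n → Option A)
    (f : (Fin n → Bool) → Bool) (inp : (J → A × Ω) → Fin n → Bool)
    (yes : J → (J → A × Ω) → Fin n → Bool) (good : A × Ω → Bool)
    (ha : ∀ ω, f (inp ω) = false) (hb : ∀ b ω, good (ω b) = true → f (yes b ω) = true)
    (hc : ∀ b ω i, ¬ (col i = b ∧ lab i = some (ω b).1) → yes b ω i = inp ω i)
    (hd : ∀ b ω, ∃ base : Ω → Fin n → Bool, (∀ i, col i ≠ b → ∃ c, ∀ F, base F i = c) ∧
      (∀ i, (∃ c, ∀ F, base F i = c) ∨ ∃ a, ∀ F, base F i = rd a F) ∧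
      ∀ α F i, ¬ (col i = b ∧ lab i = some α) → inp (Function.update ω b (α, F)) i = base F i)
    (P : A → Ω → ℝ) (hP : ∀ α, IsP (P α)) (P0 : Ω → ℝ) (hP0 : IsP P0) (L : ℕ) (δ : ℝ)
    (hδ : ∀ α g, Dep rd L g → ∑ F, P α F * ind (g F) ≤ ∑ F, P0 F * ind (g F) + δ)
    (hg : ∀ α, 9 / 10 ≤ ∑ F, P α F * ind (good (α, F)))
    {r : ℕ} (hr : RandomizedComputes f r) :
    (3 / 10 - L / Fintype.card A - δ) * Fintype.card J * (L + 1) ≤ r := by
  set a : ℝ := (Fintype.card A : ℝ) with ha'
  have a0 : 0 < a := by rw [ha']; exact_mod_cast Fintype.card_pos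
  set ν : J → A × Ω → ℝ := fun _ y => a⁻¹ * P y.1 y.2 with hν
  have hνP : ∀ j, IsP (ν j) := fun j => ⟨fun y => mul_nonneg (by positivity) ((hP _).1 _), by
    simp only [hν, Fintype.sum_prod_type, ← mul_sum, (hP _).2, sum_const, card_univ, nsmul_eq_mul,
      mul_one]
    exact inv_mul_cancel₀ a0.ne'⟩
  have hhit : ∀ (T : DTree n) b, Ex ν (fun ω => ind (hit (fun i => decide (col i = b))
      (fun i => decide (lab i = some (ω b).1)) T L (inp ω))) ≤ L / a + δ := by
    intro T b
    rw [Ex_resample ν b (hνP b).2, ← Ex_const (fun j => (hνP j).2) (L / a + δ)]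
    refine Ex_mono hνP fun ω => ?_
    obtain ⟨base, b1, b2, b3⟩ := hd b ω
    simp only [Function.update_self, Fintype.sum_prod_type, hν, mul_assoc, ← mul_sum]
    have e : ∀ α F, hit (fun i => decide (col i = b)) (fun i => decide (lab i = some α)) T L
        (inp (Function.update ω b (α, F))) = hit (fun i => decide (col i = b))
          (fun i => decide (lab i = some α)) T L (base F) := fun α F =>
      hit_congr (fun i hi => b3 α F i (by simpa using hi)) T L
    simp only [e]
    have h1 := sum_le_sum (s := univ) fun α _ => hδ α _ (hit_dep (C := fun i => decide (col i = b))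
      (S := fun i => decide (lab i = some α)) (fun i hi => b1 i (by simpa using hi)) b2 T L)
    rw [sum_add_distrib, sum_const, card_univ, nsmul_eq_mul, ← ha'] at h1
    have h2 : ∑ F, ∑ α, P0 F * ind (hit (fun i => decide (col i = b))
        (fun i => decide (lab i = some α)) T L (base F)) ≤ L := by
      calc _ ≤ ∑ F, P0 F * L := sum_le_sum fun F _ => by
            rw [← mul_sum]
            exact mul_le_mul_of_nonneg_left (sum_hit _ _ _ _ _) (hP0.1 F)
        _ = L := by rw [← sum_mul, hP0.2, one_mul]
    rw [sum_comm] at h2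
    rw [inv_mul_le_iff₀ a0, mul_add, mul_div_cancel₀ _ a0.ne']
    linarith
  have htree : ∀ T : DTree n, T.depth ≤ r →
      ∑ b, Ex ν (fun ω => ind (T.eval (yes b ω) != T.eval (inp ω)))
        ≤ r / (L + 1) + Fintype.card J * (L / a + δ) := by
    intro T hT
    have h1 : ∀ b ω, ind (T.eval (yes b ω) != T.eval (inp ω))
        ≤ (cnt (fun i => decide (col i = b)) T (inp ω) : ℝ) / (L + 1)
          + ind (hit (fun i => decide (col i = b))
            (fun i => decide (lab i = some (ω b).1)) T L (inp ω)) := by
      intro b ω
      by_cases h : cnt (fun i => decide (col i = b)) T (inp ω) ≤ L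
      · cases h' : hit (fun i => decide (col i = b))
            (fun i => decide (lab i = some (ω b).1)) T L (inp ω)
        · rw [eval_eq_of_not_hit (fun i hi => hc b ω i (by simpa using hi)) T L h h']
          simp only [bne_self_eq_false, ind_false, add_zero]
          positivity
        · exact (ind_le_one _).trans (le_add_of_nonneg_left (by positivity))
      · refine (ind_le_one _).trans (le_add_of_le_of_nonneg ?_ (ind_nonneg _))
        rw [le_div_iff₀ (by positivity), one_mul]
        exact_mod_cast not_le.1 h
    refine (sum_le_sum fun b _ => Ex_mono hνP (h1 b)).trans ?_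
    simp only [Ex_add, sum_add_distrib]
    refine add_le_add ?_ ((sum_le_sum fun b _ => hhit T b).trans (by simp [mul_add]))
    rw [← Ex_sum, ← Ex_const (fun j => (hνP j).2) (r / (L + 1) : ℝ)]
    refine Ex_mono hνP fun ω => ?_
    rw [← sum_div]
    gcongr
    exact_mod_cast (sum_cnt col (inp ω) T).trans hT
  obtain ⟨s, p, T, p0, p1, hT, hf⟩ := hr
  have h1 : ∀ b ω, 3⁻¹ * ind (good (ω b))
      ≤ ∑ t, p t * ind ((T t).eval (yes b ω) != (T t).eval (inp ω)) := by
    intro b ω
    cases h : good (ω b)
    · simpa using sum_nonneg fun t _ => mul_nonneg (p0 t) (ind_nonneg _)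
    · have c1 := hf (yes b ω)
      have c2 := hf (inp ω)
      rw [hb b ω h] at c1
      rw [ha] at c2
      have c3 : ∑ t, ((if (T t).eval (yes b ω) = true then p t else 0)
          + (if (T t).eval (inp ω) = false then p t else 0))
          ≤ ∑ t, (p t * ind ((T t).eval (yes b ω) != (T t).eval (inp ω)) + p t) :=
        sum_le_sum fun t _ => by
          cases (T t).eval (yes b ω) <;> cases (T t).eval (inp ω) <;> simp [p0 t]
      rw [sum_add_distrib, sum_add_distrib] at c3
      simp only [ind_true]
      linarith
  have h2 : ∀ b, 9 / 10 ≤ Ex ν (fun ω => ind (good (ω b))) := by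
    intro b
    rw [Ex_resample ν b (hνP b).2]
    simp only [Function.update_self]
    rw [Ex_const fun j => (hνP j).2]
    simp only [Fintype.sum_prod_type, hν, mul_assoc, ← mul_sum]
    rw [le_inv_mul_iff₀ a0]
    simpa using sum_le_sum (s := univ) fun α _ => hg α
  have h3 : (Fintype.card J : ℝ) * (3 / 10) ≤ r / (L + 1) + Fintype.card J * (L / a + δ) := by
    calc _ = ∑ _b : J, (3⁻¹ * (9 / 10) : ℝ) := by simp; norm_num
      _ ≤ ∑ b, Ex ν (fun ω => ∑ t, p t * ind ((T t).eval (yes b ω) != (T t).eval (inp ω))) :=
          sum_le_sum fun b _ => le_trans (by rw [Ex_mul]; gcongr; exact h2 b) (Ex_mono hνP (h1 b))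
      _ = ∑ t, p t * ∑ b, Ex ν (fun ω => ind ((T t).eval (yes b ω) != (T t).eval (inp ω))) := by
          simp only [Ex_sum, Ex_mul, mul_sum]
          exact sum_comm
      _ ≤ ∑ t, p t * (r / (L + 1) + Fintype.card J * (L / a + δ)) :=
          sum_le_sum fun t _ => mul_le_mul_of_nonneg_left (htree _ (hT t)) (p0 t)
      _ = _ := by rw [← sum_mul, p1, one_mul]
  rw [← le_div_iff₀ (by positivity)]
  linarith

lemma hybrid {Λ B : Type} [Fintype Λ] [DecidableEq Λ] [Fintype B] [DecidableEq B]
    (D : Bool → (B → Bool) → ℝ) (hD : ∀ b, IsP (D b)) (L : ℕ) {δ : ℝ}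
    (hδ : ∀ f : (B → Bool) → Bool, Dep (fun i x => x i) L f →
      |∑ x, D true x * ind (f x) - ∑ x, D false x * ind (f x)| ≤ δ)
    (β : Λ → Bool) {g : (Λ → B → Bool) → Bool} (hg : Dep (fun (i : Λ × B) F => F i.1 i.2) L g) :
    Ex (fun l => D (β l)) (fun F => ind (g F))
      ≤ Ex (fun _ => D false) (fun F => ind (g F)) + Fintype.card Λ * δ := by
  have δ0 : 0 ≤ δ := (abs_nonneg _).trans (hδ _ (.const L false))
  have key : ∀ s : Finset Λ, Ex (fun l => D (if l ∈ s then β l else false)) (fun F => ind (g F))
      ≤ Ex (fun _ => D false) (fun F => ind (g F)) + s.card * δ := by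
    intro s
    induction s using Finset.induction_on with
    | empty => simp
    | insert l s hl ih =>
      have e : (fun l' => D (if l' ∈ insert l s then β l' else false))
          = Function.update (fun l => D (if l ∈ s then β l else false)) l (D (β l)) := by
        funext l'
        by_cases h : l' = l
        · subst h; simp
        · simp [h]
      rw [e, Ex_update (fun l => D (if l ∈ s then β l else false)) l (hD _).2,
        card_insert_of_notMem hl]
      rw [Ex_resample (fun l => D (if l ∈ s then β l else false)) l (hD _).2] at ih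
      have h1 := Ex_mono (p := fun l => D (if l ∈ s then β l else false)) (fun _ => hD _)
        (G := fun x => ∑ y, D (β l) y * ind (g (Function.update x l y)))
        (H := fun x => (∑ y, D (if l ∈ s then β l else false) y * ind (g (Function.update x l y)))
          + δ) fun x => by
          rw [if_neg hl]
          cases β l
          · linarith
          · have := hδ _ (hg.comp (rd' := fun i y => y i) (fun y => Function.update x l y)
              fun i => by
                by_cases h : i.1 = l
                · exact .inr ⟨i.2, fun y => by simp [h]⟩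
                · exact .inl ⟨x i.1 i.2, fun y => by simp [h]⟩)
            linarith [(abs_le.1 this).2]
      rw [Ex_add, Ex_const fun _ => (hD _).2] at h1
      push_cast
      linarith
  simpa using key univ

end Crest.Agent.R350
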