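import Crest.Agent.R350.QF
import Crest.Prelude.Def_QueryComplexity

set_option autoImplicit false
set_option linter.unusedSectionVars false
open Finset Matrix Crest.MathPhysics.Query

namespace Crest.Agent.R350

variable {n w : ℕ}

/-- the embedding of the work space -/
def J0 (i0 : Fin n) (ψ : Fin w → ℝ) (s : QIdx n w) : ℝ :=
  if (s.1, s.2.1) = (i0, false) then ψ s.2.2 else 0

lemma cx_unitary {S : Type} [Fintype S] [DecidableEq S] {A : Matrix S S ℝ} (hA : Aᵀ * A = 1) :
    A.map Complex.ofReal ∈ Matrix.unitaryGroup S ℂ := by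
  rw [mem_unitaryGroup_iff']
  ext a b
  have := congrFun (congrFun hA a) b
  simp only [mul_apply, transpose_apply, one_apply] at this
  simp only [mul_apply, star_apply, map_apply, Complex.star_def, Complex.conj_ofReal, one_apply]
  split_ifs at this ⊢ <;> exact_mod_cast this

lemma cx_mulVec {S : Type} [Fintype S] (A : Matrix S S ℝ) (v : S → ℝ) :
    (A.map Complex.ofReal).mulVec (fun s => (v s : ℂ)) = fun s => ((A.mulVec v s : ℝ) : ℂ) := by
  funext s
  simp [mulVec, dotProduct]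

lemma exists_lift (i0 : Fin n) {U : Matrix (Fin w) (Fin w) ℝ} (hU : Uᵀ * U = 1) :
    ∃ L : Matrix (QIdx n w) (QIdx n w) ℝ, Lᵀ * L = 1 ∧
      ∀ ψ, L.mulVec (J0 i0 ψ) = J0 i0 (U.mulVec ψ) := by
  let e : QIdx n w ≃ Fin w × (Fin n × Bool) :=
    (Equiv.prodAssoc _ _ _).symm.trans (Equiv.prodComm _ _)
  refine ⟨(blockDiagonal fun _ => U).submatrix e e, ?_, fun ψ => ?_⟩
  · rw [transpose_submatrix, submatrix_mul_equiv, blockDiagonal_transpose, ← blockDiagonal_mul]
    simp only [hU]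
    rw [show (blockDiagonal fun _ : Fin n × Bool => (1 : Matrix (Fin w) (Fin w) ℝ)) = 1 from
      blockDiagonal_one, submatrix_one_equiv]
  · funext ⟨i, b, z⟩
    simp only [mulVec, dotProduct, submatrix_apply, blockDiagonal_apply, J0, e,
      Fintype.sum_prod_type]
    simp only [Equiv.trans_apply, Equiv.prodAssoc_symm_apply, Equiv.prodComm_apply,
      Prod.swap_prod_mk, Prod.mk.injEq]
    rw [sum_eq_single i (fun j _ hj => by simp [Ne.symm hj]) (by simp),
      sum_eq_single b (fun j _ hj => by simp [Ne.symm hj]) (by simp)]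
    split_ifs <;> simp_all

lemma exists_lab (i0 : Fin n) (lab : Fin w → Option (Fin n)) :
    ∃ P : Matrix (QIdx n w) (QIdx n w) ℝ, Pᵀ * P = 1 ∧ ∀ x ψ,
      oracle x (fun s => (P.mulVec (J0 i0 ψ) s : ℂ))
        = fun s => (P.mulVec (J0 i0 ((Dm lab x).mulVec ψ)) s : ℂ) := by
  set c : ℝ := √2⁻¹
  have hc : c ^ 2 = 2⁻¹ := Real.sq_sqrt (by norm_num)
  let v : Fin w → Fin n × Bool → ℝ := fun z s =>
    if s.1 = (lab z).getD i0 then c * sg ((lab z).isSome && s.2) else 0
  have hv : ∀ z, ∑ s, v z s ^ 2 = 1 := fun z => by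
    simp [v, Fintype.sum_prod_type, mul_pow, sg_sq, hc, sum_add_distrib]; norm_num
  choose P hP hPv using fun z => exists_orth_col (v z) (hv z) (i0, false)
  let e : QIdx n w ≃ (Fin n × Bool) × Fin w := (Equiv.prodAssoc _ _ _).symm
  have key : ∀ ψ s, ((blockDiagonal P).submatrix e e).mulVec (J0 i0 ψ) s
      = v s.2.2 (s.1, s.2.1) * ψ s.2.2 := by
    rintro ψ ⟨i, b, z⟩
    simp only [mulVec, dotProduct, submatrix_apply, blockDiagonal_apply, J0, e,
      Fintype.sum_prod_type]
    simp only [Equiv.prodAssoc_symm_apply, Prod.mk.injEq]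
    rw [sum_eq_single i0 (fun j _ hj => by simp [hj]) (by simp),
      sum_eq_single false (fun j _ hj => by simp [hj]) (by simp)]
    simp [hPv]
  refine ⟨(blockDiagonal P).submatrix e e, ?_, fun x ψ => ?_⟩
  · rw [transpose_submatrix, submatrix_mul_equiv, blockDiagonal_transpose, ← blockDiagonal_mul]
    simp only [hP]
    rw [show (blockDiagonal fun _ : Fin w => (1 : Matrix (Fin n × Bool) _ ℝ)) = 1 from
      blockDiagonal_one, submatrix_one_equiv]
  · funext ⟨i, b, z⟩
    simp only [oracle, key, Dm, mulVec_diagonal, v]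
    congr 1
    cases h : lab z with
    | none => simp
    | some j =>
      simp only [Option.getD_some, Option.isSome_some, Bool.true_and, Option.elim_some]
      split_ifs with hi
      · subst hi
        cases b <;> cases x i <;> simp
      · simp

lemma stateAfter_congr {U U' : ℕ → Matrix (QIdx n w) (QIdx n w) ℂ} (x : Fin n → Bool)
    (ψ : QIdx n w → ℂ) (q : ℕ) (h : ∀ t ≤ q, U t = U' t) :
    stateAfter U x ψ q = stateAfter U' x ψ q := by
  induction q with
  | zero => simp [stateAfter, h 0 le_rfl]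
  | succ q ih => simp [stateAfter, h _ le_rfl, ih fun t ht => h t (by omega)]

lemma exists_run (i0 : Fin n) (ψ : Fin w → ℝ) : ∀ (q : ℕ)
    (V : (Fin n → Bool) → Matrix (Fin w) (Fin w) ℝ), QF q V →
    ∀ P : Matrix (QIdx n w) (QIdx n w) ℝ, Pᵀ * P = 1 →
    ∃ U : ℕ → Matrix (QIdx n w) (QIdx n w) ℂ, (∀ t, U t ∈ Matrix.unitaryGroup (QIdx n w) ℂ) ∧
      ∀ x, stateAfter U x (fun s => (J0 i0 ψ s : ℂ)) q
        = fun s => (P.mulVec (J0 i0 ((V x).mulVec ψ)) s : ℂ)
  | 0, V, ⟨A, hA, h⟩, P, hP => by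
    obtain ⟨L, hL, hL'⟩ := exists_lift i0 hA
    refine ⟨fun _ => (P * L).map Complex.ofReal, fun _ => cx_unitary (orth_mul hP hL), fun x => ?_⟩
    rw [stateAfter, cx_mulVec, ← mulVec_mulVec, hL', h]
  | q + 1, V, ⟨A, hA, lab, V', hV, h⟩, P, hP => by
    obtain ⟨L, hL, hL'⟩ := exists_lift i0 hA
    obtain ⟨R, hR, hR'⟩ := exists_lab i0 lab
    obtain ⟨U, hU, hU'⟩ := exists_run i0 ψ q V' hV R hR
    refine ⟨Function.update U (q + 1) ((P * (L * Rᵀ)).map Complex.ofReal), fun t => ?_,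
      fun x => ?_⟩
    · by_cases ht : t = q + 1
      · rw [ht, Function.update_self]
        exact cx_unitary (orth_mul hP (orth_mul hL (by simpa using mul_eq_one_comm.1 hR)))
      · rw [Function.update_of_ne ht]; exact hU t
    · rw [stateAfter, Function.update_self, stateAfter_congr (U' := U) x _ q
        (fun t ht => Function.update_of_ne (by omega) _ _), hU', hR', cx_mulVec, mulVec_mulVec,
        Matrix.mul_assoc, Matrix.mul_assoc, hR, Matrix.mul_one, ← mulVec_mulVec, hL', h,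
        mulVec_mulVec, mulVec_mulVec]

lemma sum_J0 (i0 : Fin n) (ψ : Fin w → ℝ) (g : Fin w → ℝ) :
    ∑ s : QIdx n w, g s.2.2 * J0 i0 ψ s ^ 2 = ∑ z, g z * ψ z ^ 2 := by
  simp only [Fintype.sum_prod_type, J0, Prod.mk.injEq]
  rw [sum_eq_single i0 (fun j _ hj => by simp [hj]) (by simp),
    sum_eq_single false (fun j _ hj => by simp [hj]) (by simp)]
  simp

theorem quantum_of_Rz (hn : 0 < n) (f : (Fin n → Bool) → Bool) {q : ℕ}
    {E : (Fin n → Bool) → (Bool → ℝ) → ℝ} (h : Rz q E)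
    (hf : ∀ x, 2 / 3 ≤ E x (fun b => if b = f x then 1 else 0)) : QuantumComputes f q := by
  obtain ⟨I, _, _, V, e0, out, hV, h⟩ := h
  let e := (Fintype.equivFin I).symm
  obtain ⟨U, hU, hU'⟩ := exists_run ⟨0, hn⟩ (Pi.single (e.symm e0) 1) q _ (hV.reindex e) 1
    (by simp)
  refine ⟨_, U, fun s => (J0 ⟨0, hn⟩ (Pi.single (e.symm e0) 1) s : ℂ), fun s => out (e s.2.2),
    hU, ?_, fun x => ?_⟩
  · have := sum_J0 ⟨0, hn⟩ (Pi.single (e.symm e0) (1 : ℝ)) (fun _ => 1)
    simpa [Pi.single_apply] using this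
  · refine (hf x).trans (le_of_eq ?_)
    have := sum_J0 ⟨0, hn⟩ (((V x).submatrix e e).mulVec (Pi.single (e.symm e0) 1))
      (fun z => if out (e z) = f x then 1 else 0)
    rw [hU', h, ← e.sum_comp]
    simp only [one_mulVec, Complex.norm_real, Real.norm_eq_abs, sq_abs]
    simp only [ite_mul, one_mul, zero_mul] at this
    rw [this]
    simp

end Crest.Agent.R350
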