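import Crest.Agent.R350.QAlg

set_option autoImplicit false
set_option linter.unusedSectionVars false
open Finset

namespace Crest.Agent.R350

variable {ι J : Type} [Fintype J] [Nonempty J] [DecidableEq J]

/-- survival probability against a list of opponents -/
noncomputable def WW (w : J → J → ℝ) {t : ℕ} (vs : Fin t → Option J) (j : J) : ℝ :=
  ∏ s, (vs s).elim 1 (w j)

open Classical in
/-- the potential -/
noncomputable def Pot (w : J → J → ℝ) (b : J) {t : ℕ} (vs : Fin t → Option J) : ℝ :=
  if ∃ s, vs s = some b then 0 else ∑ j, WW w vs j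

lemma WW_nonneg {w : J → J → ℝ} (h : ∀ j v, 0 ≤ w j v) {t : ℕ} (vs : Fin t → Option J) (j : J) :
    0 ≤ WW w vs j := prod_nonneg fun s _ => by cases vs s <;> simp [h]

lemma WW_ge {w : J → J → ℝ} {b : J} {η : ℝ} (hη : 0 ≤ η) (hη1 : η ≤ 1)
    (h : ∀ v, v ≠ b → 1 - η ≤ w b v) {t : ℕ} (vs : Fin t → Option J) (hb : ¬ ∃ s, vs s = some b) :
    1 - t * η ≤ WW w vs b := by
  have h1 := one_add_mul_le_pow (a := -η) (by linarith) t
  have h2 : ∏ _s : Fin t, (1 + -η) ≤ WW w vs b := prod_le_prod (fun _ _ => by linarith) fun s _ => by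
    cases hs : vs s with
    | none => simp [hη]
    | some v => exact h v fun e => hb ⟨s, by rw [hs, e]⟩
  simp only [prod_const, card_univ, Fintype.card_fin] at h2
  linarith

lemma rounds {qq : ℕ} (w : J → J → (ι → Bool) → ℝ) (hw : ∀ j v, RB qq (w j v))
    (hsym : ∀ j v x, w j v x + w v j x ≤ 1) {η : ℝ} (hη : 0 ≤ η) (hη1 : η ≤ 1) (ρ T : ℕ)
    (hT : T * η ≤ 1 / 2) (hρ : 2 * (Fintype.card J : ℝ) ≤ 9 ^ ρ) (t : ℕ) (ht : t ≤ T) :
    ∃ E : (ι → Bool) → ((Fin t → Option J) → ℝ) → ℝ, Rz (t * (3 ^ ρ * (T * qq))) E ∧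
      ∀ x b, (∀ v, v ≠ b → 1 - η ≤ w b v x) → E x (Pot (fun j v => w j v x) b)
        ≤ Fintype.card J * (1 - (8 * (ρ + 1) : ℝ)⁻¹) ^ t := by
  set m : ℝ := (Fintype.card J : ℝ) with hm
  have hm0 : 0 < m := by rw [hm]; exact_mod_cast Fintype.card_pos
  induction t with
  | zero =>
    exact ⟨_, (Rz.pure Fin.elim0).le (Nat.zero_le _), fun x b _ => by simp [Pot, WW, hm]⟩
  | succ t ih =>
    obtain ⟨E, h1, h2⟩ := ih (by omega)
    have hW : ∀ (vs : Fin t → Option J) j, RB (T * qq) (fun x => WW (fun j v => w j v x) vs j) := by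
      intro vs j
      refine (RB.prod univ (q := qq) (p := fun s x => (vs s).elim 1 (fun v => w j v x))
        fun s => ?_).le (by simpa using Nat.mul_le_mul_right _ (by omega))
      cases vs s with
      | none => exact RB.one
      | some v => exact hw j v
    have hc := fun vs : Fin t → Option J => ((Rz.unif J).bind fun j =>
      Rz.map (hW vs j) (fun b => if b then some j else none)).boost Option.isSome ρ
    choose F hF hF' using hc
    refine ⟨_, (h1.bind fun vs => (hF vs).map fun o =>
      (Fin.cons o vs : Fin (t + 1) → Option J)).le (by ring_nf; rfl), fun x b hb => ?_⟩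
    set σ : ℝ := (8 * (ρ + 1) : ℝ)⁻¹ with hσ
    have hσ1 : 0 ≤ 1 - σ := by
      rw [sub_nonneg]
      exact inv_le_one_of_one_le₀ (by have : (0 : ℝ) ≤ ρ := by positivity
                                      linarith)
    set w' : J → J → ℝ := fun j v => w j v x
    have w0 : ∀ j v, 0 ≤ w' j v := fun j v => (hw j v).nonneg x
    refine (h1.mono x (ψ := fun vs => (1 - σ) * Pot w' b vs) fun vs => ?_).trans ?_
    swap
    · rw [h1.smul, pow_succ, ← mul_assoc, mul_comm]
      gcongr
      exact h2 x b hb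
    by_cases hvs : ∃ s, vs s = some b
    · have : ∀ o, Pot w' b (Fin.cons o vs : Fin (t + 1) → Option J) = 0 := fun o => by
        obtain ⟨s, hs⟩ := hvs
        exact if_pos ⟨s.succ, by simpa using hs⟩
      simp only [this, (hF vs).const]
      rw [Pot, if_pos hvs, mul_zero]
    · obtain ⟨g, g0, g1, g2⟩ := hF' vs x
      set S := ∑ j, WW w' vs j with hS
      have W0 := WW_nonneg w0 vs
      have hS1 : 1 / 2 ≤ S := by
        have a1 := WW_ge (w := w') hη hη1 hb vs hvs
        have a2 : WW w' vs b ≤ S := single_le_sum (fun j _ => W0 j) (mem_univ b)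
        have a3 : (t : ℝ) * η ≤ T * η := by gcongr; omega
        linarith
      set ψ : Option J → ℝ := fun o => o.elim 0 fun v => S - ∑ j, w' j v * WW w' vs j with hψ
      have e1 : ∀ o, Pot w' b (Fin.cons o vs : Fin (t + 1) → Option J) ≤ S + (-1) * ψ o := by
        intro o
        have : ∑ j, WW w' (Fin.cons o vs : Fin (t + 1) → Option J) j = S + (-1) * ψ o := by
          cases o <;> simp [WW, Fin.prod_univ_succ, hψ, hS]
        rw [← this, Pot]
        split_ifs
        · exact sum_nonneg fun j _ => WW_nonneg w0 _ _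
        · exact le_rfl
      refine ((hF vs).mono x e1).trans ?_
      rw [(hF vs).lin, g1 ψ (fun o ho => by cases o <;> simp_all), Pot, if_neg hvs, ← hS]
      simp only [if_true, Option.isSome_some, ind_true, mul_one, Bool.false_eq_true, if_false,
        Option.isSome_none, ind_false, mul_zero, add_zero, ← mul_sum] at g2
      simp only [hψ, if_true, Bool.false_eq_true, if_false, Option.elim_none, Option.elim_some,
        mul_zero, add_zero, ← mul_sum]
      rw [← hm] at g2 ⊢
      have g3 : (4 * (ρ + 1) : ℝ)⁻¹ ≤ g * (m⁻¹ * S) := g2 (by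
        rw [← mul_assoc]
        have : 2 ≤ 9 ^ ρ * m⁻¹ := by rw [← div_eq_mul_inv, le_div_iff₀ hm0]; exact hρ
        change 1 ≤ 9 ^ ρ * m⁻¹ * S
        nlinarith)
      have e2 : S * S / 2 ≤ ∑ v, WW w' vs v * (S - ∑ j, w' j v * WW w' vs j) := by
        have a1 : ∑ v, WW w' vs v * ∑ j, w' j v * WW w' vs j
            = ∑ v, ∑ j, WW w' vs v * WW w' vs j * w' j v := by
          simp only [mul_sum]
          exact sum_congr rfl fun _ _ => sum_congr rfl fun _ _ => by ring
        have a2 : ∑ v, WW w' vs v * ∑ j, w' j v * WW w' vs j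
            = ∑ v, ∑ j, WW w' vs v * WW w' vs j * w' v j := by
          rw [a1, sum_comm]
          exact sum_congr rfl fun _ _ => sum_congr rfl fun _ _ => by ring
        have a3 : ∑ v, ∑ j, WW w' vs v * WW w' vs j * w' j v
            + ∑ v, ∑ j, WW w' vs v * WW w' vs j * w' v j ≤ S * S := by
          rw [hS, sum_mul_sum, ← sum_add_distrib]
          refine sum_le_sum fun v _ => ?_
          rw [← sum_add_distrib]
          refine sum_le_sum fun j _ => ?_
          rw [← mul_add]
          exact mul_le_of_le_one_right (mul_nonneg (W0 v) (W0 j)) (hsym j v x)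
        simp only [mul_sub, sum_sub_distrib, ← sum_mul, ← hS]
        linarith
      have e3 : σ * 2 = (4 * (ρ + 1) : ℝ)⁻¹ := by rw [hσ]; field_simp; norm_num
      have e4 : g * (m⁻¹ * (S * S / 2))
          ≤ g * (m⁻¹ * ∑ v, WW w' vs v * (S - ∑ j, w' j v * WW w' vs j)) := by gcongr
      have e5 : σ * 2 * (S / 2) ≤ g * (m⁻¹ * S) * (S / 2) := by
        rw [e3]; gcongr
      change S + -1 * (g * (m⁻¹ * ∑ v, WW w' vs v * (S - ∑ j, w' j v * WW w' vs j))) ≤ _
      nlinarith

theorem tournament {A C : Type} [Fintype C] [Nonempty C] [DecidableEq A] {q1 q2 q3 : ℕ}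
    (dec : J → (ι → Bool) → (A → ℝ) → ℝ) (hdec : ∀ j, Rz q1 (dec j))
    (kill : J → A → J → (ι → Bool) → Bool) (hkill : ∀ j α v, Cmp q2 (kill j α v))
    (ver : J → A → C → (ι → Bool) → Bool) (hver : ∀ j α c, Cmp q3 (ver j α c))
    {η : ℝ} (hη : 0 ≤ η) (hη1 : η ≤ 1 / 8)
    (H : ∀ x b α, (∀ c, ver b α c x = true) →
      1 - η ≤ dec b x (fun β => if β = α then 1 else 0) ∧
      (∀ v, v ≠ b → kill b α v x = true) ∧ ∀ v β, kill v β b x = false)
    (ρ T T' : ℕ) (hρ : 2 * (Fintype.card J : ℝ) ≤ 9 ^ ρ) (hρ' : (Fintype.card C : ℝ) ≤ 9 ^ ρ)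
    (hTη : T * η ≤ 1 / 2) (hT : 2 * (Fintype.card J * (1 - (8 * (ρ + 1) : ℝ)⁻¹) ^ T) ≤ 1 / 8)
    (hT' : T * (1 - (4 * (ρ + 1) : ℝ)⁻¹) ^ T' ≤ 1 / 3) :
    ∃ p : (ι → Bool) → ℝ,
      RB (T * (3 ^ ρ * (T * (q1 + q2 + (q1 + q2)))) + T * (q1 + T' * (3 ^ ρ * q3))) p ∧
      ∀ x, ((∃ j α, ∀ c, ver j α c x = true) → 2 / 3 ≤ p x) ∧
        ((¬ ∃ j α, ∀ c, ver j α c x = true) → p x ≤ 1 / 3) := by
  have hk := fun j v => (hdec j).bindB fun α => (hkill j α v).toRB
  have hw := fun j v => (hk j v).mul (hk v j).not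
  obtain ⟨E, hE, hE'⟩ := rounds _ hw (fun j v x => by
    have a1 := (hk j v).nonneg x
    have a2 := (hk j v).le_one x
    have a3 := (hk v j).nonneg x
    have a4 := (hk v j).le_one x
    nlinarith [mul_nonneg a1 a3, mul_nonneg (sub_nonneg.2 a2) (sub_nonneg.2 a4)])
    hη (by linarith) ρ T hTη hρ T le_rfl
  choose F hF hF' using fun v α =>
    ((Rz.unif C).bind fun c => hver v α c).boost (fun b => !b) ρ
  have htst := fun v α => ((hF v α).map fun b => !b).toRB
  have hacc := fun v => (hdec v).bindB fun α => (htst v α).not.pow T'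
  set acc : J → (ι → Bool) → ℝ := fun v x =>
    dec v x fun α => (1 - F v α x fun b => ind (!b)) ^ T' with hacc'
  have hacc2 : ∀ o : Option J, RB (q1 + T' * (3 ^ ρ * q3)) (fun x => o.elim 0 fun v => acc v x) := by
    intro o
    cases o with
    | none => exact RB.zero
    | some v => simpa using hacc v
  have hrej := fun vs : Fin T → Option J => (RB.prod univ fun s => (hacc2 (vs s)).not).not
  refine ⟨_, (hE.bindB hrej).le (by simp), fun x => ⟨?_, fun hx => ?_⟩⟩
  · rintro ⟨b, α, hb⟩
    obtain ⟨H1, H2, H3⟩ := H x b α hb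
    have hge : ∀ φ : A → ℝ, (∀ β, 0 ≤ φ β) → φ α = 1 → 1 - η ≤ dec b x φ := fun φ h0 h1 =>
      H1.trans ((hdec b).mono x fun β => by split_ifs with h <;> simp [h, h0, h1])
    have a1 := hE' x b fun v hv => by
      simp only [H3, ind_false, (hdec v).const, sub_zero, mul_one]
      exact hge _ (fun _ => ind_nonneg _) (by simp [H2 v hv])
    have a2 : 1 - η ≤ acc b x := hge _
      (fun β => pow_nonneg (sub_nonneg.2 ((htst b β).le_one x)) _) (by
        obtain ⟨g, -, g1, -⟩ := hF' b α x
        rw [g1 _ (fun y hy => by simp [hy])]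
        simp [hb])
    refine le_trans ?_ (hE.mono x (φ := fun vs => (1 - η) + (-2) * Pot (fun j v =>
      dec j x (fun α => ind (kill j α v x)) * (1 - dec v x fun α => ind (kill v α j x))) b vs)
      fun vs => ?_)
    · rw [hE.lin]; linarith
    · by_cases hvs : ∃ s, vs s = some b
      · rw [Pot, if_pos hvs]
        obtain ⟨s, hs⟩ := hvs
        rw [Fintype.prod_eq_mul_prod_subtype_ne _ s, hs]
        have a3 : ∏ j : {j // j ≠ s}, (1 - (vs j).elim 0 fun v => acc v x) ≤ 1 :=
          prod_le_one (fun j _ => (hacc2 _).not.nonneg x) fun j _ => (hacc2 _).not.le_one x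
        have a4 := (hacc2 (some b)).not.nonneg x
        have a5 := mul_le_mul_of_nonneg_left a3 a4
        simp only [Option.elim_some] at a5 ⊢
        linarith
      · rw [Pot, if_neg hvs]
        have w0 := WW_nonneg (fun j v => (hw j v).nonneg x) vs
        have a3 := WW_ge hη (by linarith) (b := b) (w := fun j v => dec j x (fun α => ind (kill j α v x))
          * (1 - dec v x fun α => ind (kill v α j x))) (fun v hv => by
            simp only [H3, ind_false, (hdec v).const, sub_zero, mul_one]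
            exact hge _ (fun _ => ind_nonneg _) (by simp [H2 v hv])) vs hvs
        have a4 := single_le_sum (fun j _ => w0 j) (mem_univ b)
        have a5 := (hrej vs).nonneg x
        linarith
  · set β := (1 - (4 * (ρ + 1) : ℝ)⁻¹) ^ T' with hβ
    have hσ : 0 ≤ 1 - (4 * (ρ + 1) : ℝ)⁻¹ := by
      rw [sub_nonneg]
      exact inv_le_one_of_one_le₀ (by have : (0 : ℝ) ≤ ρ := by positivity
                                      linarith)
    have hβ1 : β ≤ 1 := pow_le_one₀ hσ (sub_le_self _ (by positivity))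
    have a1 : ∀ v, acc v x ≤ β := fun v => by
      rw [← (hdec v).const x β]
      refine (hdec v).mono x fun α => pow_le_pow_left₀ (sub_nonneg.2 ((htst v α).le_one x)) ?_ _
      obtain ⟨g, -, g1, g2⟩ := hF' v α x
      rw [g1 _ (fun y hy => by simp [hy])]
      refine sub_le_sub_left (g2 ?_) _
      push Not at hx
      obtain ⟨c, hc⟩ := hx v α
      have a2 := single_le_sum (f := fun c => (Fintype.card C : ℝ)⁻¹ * ind (!ver v α c x))
        (fun c _ => mul_nonneg (by positivity) (ind_nonneg _)) (mem_univ c)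
      have a3 : (0 : ℝ) < Fintype.card C := by exact_mod_cast Fintype.card_pos
      have a4 : 1 ≤ 9 ^ ρ * (Fintype.card C : ℝ)⁻¹ := by
        rw [← div_eq_mul_inv, le_div_iff₀ a3]; linarith
      simp only [Bool.not_eq_true] at hc
      simp only [hc, Bool.not_false, ind_true, mul_one] at a2
      exact a4.trans (by gcongr)
    refine (hE.mono x (ψ := fun _ => T * β) fun vs => ?_).trans (by rw [hE.const]; exact hT')
    have h1 := one_add_mul_le_pow (a := -β) (by linarith) T
    have h2 : ∏ _s : Fin T, (1 + -β) ≤ ∏ s, (1 - (vs s).elim 0 fun v => acc v x) :=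
      prod_le_prod (fun _ _ => by linarith) fun s _ => by
        cases vs s with
        | none => simp only [Option.elim_none]; linarith [(pow_nonneg hσ _ : 0 ≤ β)]
        | some v => simp only [Option.elim_some]; linarith [a1 v]
    simp only [prod_const, card_univ, Fintype.card_fin] at h2
    linarith

end Crest.Agent.R350
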