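import Crest.Agent.R350.Forr
import Crest.Agent.R350.Tour
import Crest.Agent.R350.Lower
import Crest.Agent.R350.QConv

set_option autoImplicit false
set_option linter.unusedSectionVars false
open Finset Crest.MathPhysics.Query

namespace Crest.Agent.R350

/-- the input positions -/
abbrev Idx (n k R : ℕ) : Type :=
  (Fin n → Bool) × (((Fin n × Fin R) × Fin (k + 1) × (Fin n → Bool)) ⊕ ((Fin n → Bool) ×
    (Unit ⊕ ((Fin n → Bool) × Fin n) ⊕ ((Fin n × Fin R) × Pos k n × Fin (n * (k + 1) + 2)))))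

/-- the local checks -/
abbrev Chk (n k R : ℕ) : Type :=
  (Fin n → Bool) ⊕ (Fin n → Bool) ⊕ ((Fin n × Fin R) × Pos k n) ⊕ Fin n

variable {n k R : ℕ} (dec : (Fin (n * (k + 1) + 2) → Bool) → ℤ) (μ γ ν : ℝ)

/-- a Forrelation instance -/
def inst (x : Idx n k R → Bool) (j : Fin n → Bool) (l : Fin n × Fin R) :
    Fin (k + 1) × (Fin n → Bool) → Bool := fun b => x (j, .inl (l, b))

/-- following a pointer leads to a zero -/
def kill (j α v : Fin n → Bool) (x : Idx n k R → Bool) : Bool :=
  !x (v, .inr (fun l => x (j, .inr (α, .inr (.inl (v, l)))), .inl ()))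

/-- a tableau entry -/
def tb (j α : Fin n → Bool) (l : Fin n × Fin R) (p : Pos k n) (x : Idx n k R → Bool) : ℤ :=
  dec fun t => x (j, .inr (α, .inr (.inr (l, p, t))))

open Classical in
/-- the promise on the Forrelation values -/
noncomputable def okb (b : Bool) (t : Fin R → ℝ) : Bool :=
  decide (if b then ∃ c, γ ≤ t c ^ 2 else ∀ c, t c ^ 2 ≤ ν)

/-- the outcome of a local check -/
noncomputable def ver (j α : Fin n → Bool) : Chk n k R → (Idx n k R → Bool) → Bool
  | .inl β => fun x => x (j, .inr (β, .inl ()))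
  | .inr (.inl v) => fun x => decide (v = j) || kill j α v x
  | .inr (.inr (.inl (l, p))) => fun x => decide (tb dec j α l p x = rule p (inst x j l (p.1, p.2.2))
      (tb dec j α l (pre false p) x) (tb dec j α l (pre true p) x))
  | .inr (.inr (.inr i)) => fun x => okb γ ν (α i) fun c =>
      μ ^ (k + 2) * tb dec j α (i, c) (Fin.last k, Fin.last n, fun _ => false) x

open Classical in
/-- the function -/
noncomputable def fn (x : Idx n k R → Bool) : Bool := decide (∃ j α, ∀ c, ver dec μ γ ν j α c x = true)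

lemma Cmp_kill (j α v : Fin n → Bool) : Cmp (n + 1) (kill (k := k) (R := R) j α v) := by
  have := (Cmp.pi fun l => Cmp.read (ι := Idx n k R) (j, .inr (α, .inr (.inl (v, l))))).bind
    (f := fun β x => !x (v, .inr (β, .inl ()))) fun β => (Cmp.read _).map _
  rw [mul_one] at this
  exact this

lemma Cmp_tb (j α : Fin n → Bool) (l : Fin n × Fin R) (p : Pos k n) :
    Cmp (n * (k + 1) + 2) (tb dec j α l p) := by
  have := (Cmp.pi fun t => Cmp.read (ι := Idx n k R) (j, .inr (α, .inr (.inr (l, p, t))))).map dec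
  rw [mul_one] at this
  exact this

lemma Cmp_ver (j α : Fin n → Bool) (c : Chk n k R) :
    Cmp ((R + 4) * (n * (k + 1) + 2)) (ver dec μ γ ν j α c) := by
  rcases c with β | v | ⟨l, p⟩ | i
  · exact (Cmp.read _).le (by nlinarith [Nat.zero_le (n * (k + 1)), Nat.zero_le (R * (n * (k + 1)))])
  · refine Cmp.le ((Cmp_kill j α v).map fun b => decide (v = j) || b) ?_
    nlinarith [Nat.zero_le (n * k), Nat.zero_le (R * (n * (k + 1)))]
  · have := (((Cmp_tb dec j α l p).map₂ (Cmp.read (j, .inl (l, (p.1, p.2.2)))) Prod.mk).map₂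
      (Cmp_tb dec j α l (pre false p)) Prod.mk).map₂ (Cmp_tb dec j α l (pre true p))
      fun a t => decide (a.1.1 = rule p a.1.2 a.2 t)
    exact this.le (by nlinarith [Nat.zero_le (n * (k + 1)), Nat.zero_le (R * (n * (k + 1)))])
  · exact ((Cmp.pi fun c => Cmp_tb dec j α (i, c) _).map
      fun t => okb γ ν (α i) fun c => μ ^ (k + 2) * t c).le (Nat.mul_le_mul_right _ (by omega))

variable {dec μ γ ν}

lemma okb_of_ver {j α : Fin n → Bool} {x : Idx n k R → Bool}
    (h : ∀ c, ver dec μ γ ν j α c x = true) (i : Fin n) :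
    okb γ ν (α i) (fun c => Phi (Hm μ) μ (fun _ => false) (inst x j (i, c))) = true := by
  have h1 := h (.inr (.inr (.inr i)))
  have h2 : ∀ l p, tb dec j α l p x = tab (inst x j l) p := fun l =>
    eq_tab _ (fun p => tb dec j α l p x) fun p => by simpa [ver] using h (.inr (.inr (.inl (l, p))))
  simpa only [ver, h2, Phi_eq_tab] using h1

theorem quantum_part (hμ : μ ^ 2 * 2 ^ n = 1) (s ρ T T' : ℕ) {η : ℝ} (hη : 0 ≤ η) (hη0 : η ≤ 1)
    (hγ : (1 - γ) ^ s ≤ η) (hν0 : 0 ≤ ν) (hν1 : ν ≤ 1) (hν : R * s * ν ≤ η) (hη1 : n * η ≤ 1 / 8)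
    (hρ : 2 * (2 : ℝ) ^ n ≤ 9 ^ ρ)
    (hρ' : (2 ^ n + (2 ^ n + (n * R * ((k + 1) * ((n + 1) * 2 ^ n)) + n)) : ℝ) ≤ 9 ^ ρ)
    (hTη : T * (n * η) ≤ 1 / 2) (hT : 2 * (2 ^ n * (1 - (8 * (ρ + 1) : ℝ)⁻¹) ^ T) ≤ 1 / 8)
    (hT' : T * (1 - (4 * (ρ + 1) : ℝ)⁻¹) ^ T' ≤ 1 / 3) :
    ∃ p : (Idx n k R → Bool) → ℝ,
      RB (T * (3 ^ ρ * (T * (n * (R * (s * (k + 1))) + (n + 1) + (n * (R * (s * (k + 1)))
        + (n + 1))))) + T * (n * (R * (s * (k + 1)))
          + T' * (3 ^ ρ * ((R + 4) * (n * (k + 1) + 2))))) p ∧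
      ∀ x, (fn dec μ γ ν x = true → 2 / 3 ≤ p x) ∧ (fn dec μ γ ν x = false → p x ≤ 1 / 3) := by
  have hΦ : ∀ j l, RB (k + 1) (fun x : Idx n k R → Bool =>
      Phi (Hm μ) μ (fun _ => false) (inst x j l) ^ 2) := fun j l =>
    Rz.comap (fun b => (j, Sum.inl (l, b))) (RB_Phi hμ)
  have hb := fun j i => (RB.prod univ fun c => (hΦ j (i, c)).not.pow s).not
  simp only [card_univ, Fintype.card_fin] at hb
  choose E hE hE' using fun j => Rz.pi (hb j)
  refine (tournament E hE kill Cmp_kill (ver dec μ γ ν) (Cmp_ver dec μ γ ν)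
    (η := n * η) (by positivity) hη1 (fun x b α h => ⟨?_, fun v hv => ?_, fun v β => ?_⟩)
    ρ T T' (by simpa using hρ) (by simpa using hρ') hTη (by simpa using hT) hT').imp
    fun p h => ⟨h.1, fun x => ⟨fun h' => (h.2 x).1 (by simpa only [fn, decide_eq_true_eq] using h'),
      fun h' => (h.2 x).2 (by simpa only [fn, decide_eq_false_iff_not] using h')⟩⟩
  · have e := hE' b x fun i y => if y = α i then 1 else 0
    rw [show (fun β => if β = α then (1 : ℝ) else 0) = fun β => ∏ i, if β i = α i then 1 else 0 from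
      funext fun β => by simp [prod_ite_zero, funext_iff], e]
    have h3 := one_add_mul_le_pow (a := -η) (by linarith) n
    refine le_trans (by simpa [sub_eq_add_neg] using h3)
      (prod_le_prod (f := fun _ => 1 + -η) (fun _ _ => by linarith) fun i _ => ?_)
    have h4 := okb_of_ver h i
    have h5 := fun c => (hΦ b (i, c)).not.pow s
    cases hα : α i
    · simp only [okb, hα, Bool.false_eq_true, if_false, decide_eq_true_eq] at h4
      have h6 := one_add_mul_le_pow (a := -ν) (by linarith) (R * s)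
      have h7 : ∏ _c : Fin R, (1 + -ν) ^ s
          ≤ ∏ c, (1 - Phi (Hm μ) μ (fun _ => false) (inst x b (i, c)) ^ 2) ^ s :=
        prod_le_prod (fun _ _ => pow_nonneg (by linarith) _) fun c _ =>
          pow_le_pow_left₀ (by linarith) (by linarith [h4 c]) _
      rw [prod_const, card_univ, Fintype.card_fin, ← pow_mul, mul_comm s] at h7
      push_cast at h6
      simp
      linarith
    · simp only [okb, hα, if_true, decide_eq_true_eq] at h4
      obtain ⟨c, hc⟩ := h4
      have h7 : ∏ c, (1 - Phi (Hm μ) μ (fun _ => false) (inst x b (i, c)) ^ 2) ^ s ≤ η := by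
        rw [Fintype.prod_eq_mul_prod_subtype_ne _ c]
        refine (mul_le_of_le_one_right ((h5 c).nonneg x)
          (prod_le_one (fun _ _ => (h5 _).nonneg x) fun _ _ => (h5 _).le_one x)).trans ?_
        exact (pow_le_pow_left₀ ((hΦ b (i, c)).not.nonneg x) (by linarith) _).trans hγ
      simp
      linarith
  · simpa [ver, hv] using h (.inr (.inl v))
  · simpa [kill, ver] using h (.inl _)

lemma Ex_coord {ι Y : Type*} [Fintype ι] [DecidableEq ι] [Fintype Y] {p : ι → Y → ℝ}
    (hp : ∀ i, ∑ y, p i y = 1) (i : ι) (g : Y → ℝ) :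
    Ex p (fun x => g (x i)) = ∑ y, p i y * g y := by
  rw [Ex_resample p i (hp i)]
  simp only [Function.update_self, Ex_const hp]

lemma good_prob {B : Type} [Fintype B] [DecidableEq B] (D : Bool → (B → Bool) → ℝ)
    (hD : ∀ b, IsP (D b)) (Φ : (B → Bool) → ℝ) {π m : ℝ} (hν : 0 < ν)
    (h1 : π ≤ ∑ x, D true x * if γ ≤ Φ x ^ 2 then 1 else 0) (h0 : ∑ x, D false x * Φ x ^ 2 = m)
    (α : Fin n → Bool) :
    1 - n * ((1 - π) ^ R + R * (m / ν)) ≤ Ex (fun l : Fin n × Fin R => D (α l.1))
      (fun F => ind (decide (∀ i, okb γ ν (α i) (fun c => Φ (F (i, c))) = true))) := by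
  have hπ : ∑ x, D true x * (if γ ≤ Φ x ^ 2 then 0 else 1) ≤ 1 - π := by
    have : ∑ x, D true x * (if γ ≤ Φ x ^ 2 then 0 else 1)
        + ∑ x, D true x * (if γ ≤ Φ x ^ 2 then 1 else 0) = 1 := by
      rw [← sum_add_distrib]
      exact (sum_congr rfl fun x _ => by split_ifs <;> simp).trans (hD true).2
    linarith
  have hπ0 : 0 ≤ ∑ x, D true x * (if γ ≤ Φ x ^ 2 then 0 else 1) :=
    sum_nonneg fun x _ => mul_nonneg ((hD true).1 x) (by split_ifs <;> simp)
  have hm : 0 ≤ m := h0 ▸ sum_nonneg fun x _ => mul_nonneg ((hD false).1 x) (sq_nonneg _)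
  have hp : ∀ l : Fin n × Fin R, IsP (D (α l.1)) := fun l => hD _
  set bad : Fin n → (Fin n × Fin R → B → Bool) → ℝ := fun i F =>
    if α i then ∏ c, (if γ ≤ Φ (F (i, c)) ^ 2 then 0 else 1) else ∑ c, ν⁻¹ * Φ (F (i, c)) ^ 2
  have b0 : ∀ i F, 0 ≤ bad i F := fun i F => by
    simp only [bad]
    split_ifs
    · exact prod_nonneg fun c _ => by split_ifs <;> simp
    · positivity
  have b1 : ∀ i, Ex (fun l : Fin n × Fin R => D (α l.1)) (bad i) ≤ (1 - π) ^ R + R * (m / ν) := by
    intro i
    cases hα : α i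
    · simp only [bad, hα, Bool.false_eq_true, if_false]
      rw [Ex_sum]
      simp only [Ex_mul, Ex_coord (fun l => (hp l).2) _ (fun y => Φ y ^ 2), hα, h0]
      simp only [sum_const, card_univ, Fintype.card_fin, nsmul_eq_mul, div_eq_inv_mul]
      exact le_add_of_nonneg_left (pow_nonneg (hπ0.trans hπ) _)
    · simp only [bad, hα, if_true]
      have e := Ex_prod (fun l : Fin n × Fin R => D (α l.1))
        fun l y => if l.1 = i then (if γ ≤ Φ y ^ 2 then 0 else 1) else 1
      simp only [Fintype.prod_prod_type] at e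
      simp only [prod_comm (s := (univ : Finset (Fin n))), prod_ite_eq', mem_univ, if_true] at e
      rw [e]
      refine le_add_of_le_of_nonneg ?_ (by positivity)
      rw [show (1 - π) ^ R = ∏ _c : Fin R, (1 - π) by simp]
      have e2 : ∏ x : Fin n, ∑ y, D (α x) y * (if x = i then (if γ ≤ Φ y ^ 2 then 0 else 1) else 1)
          = ∑ x, D true x * (if γ ≤ Φ x ^ 2 then 0 else 1) := by
        rw [prod_eq_single i (fun j _ hj => by simp only [hj, if_false, mul_one, (hD _).2])
          (by simp)]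
        simp only [hα, if_true]
      simp only [e2]
      exact prod_le_prod (fun _ _ => hπ0) fun _ _ => hπ
  have b2 := Ex_mono hp (G := fun F => 1 - ∑ i, bad i F)
    (H := fun F => ind (decide (∀ i, okb γ ν (α i) (fun c => Φ (F (i, c))) = true))) fun F => by
      by_cases h : ∀ i, okb γ ν (α i) (fun c => Φ (F (i, c))) = true
      · simpa [h] using sum_nonneg fun i _ => b0 i F
      · simp only [h, decide_false, ind_false, sub_nonpos]
        push Not at h
        obtain ⟨i, hi⟩ := h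
        refine le_trans ?_ (single_le_sum (fun i _ => b0 i F) (mem_univ i))
        cases hα : α i
        · simp only [okb, hα, Bool.false_eq_true, if_false, ne_eq, decide_eq_true_eq,
            not_forall, not_le] at hi
          obtain ⟨c, hc⟩ := hi
          simp only [bad, hα, Bool.false_eq_true, if_false]
          refine le_trans ?_ (single_le_sum (f := fun c => ν⁻¹ * Φ (F (i, c)) ^ 2)
            (fun _ _ => by positivity) (mem_univ c))
          rw [le_inv_mul_iff₀ hν]; linarith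
        · simp only [okb, hα, if_true, ne_eq, decide_eq_true_eq, not_exists] at hi
          simp [bad, hα, hi]
  rw [Ex_sub, Ex_const fun l => (hp l).2, Ex_sum] at b2
  have b3 := sum_le_sum (s := univ) fun i _ => b1 i
  simp only [sum_const, card_univ, Fintype.card_fin, nsmul_eq_mul] at b3
  linarith

/-- the address a position belongs to -/
def lab (i : Idx n k R) : Option (Fin n → Bool) := i.2.elim (fun _ => none) fun c => some c.1

/-- hidden data -/
abbrev Dat (n k R : ℕ) : Type :=
  (Fin n → Bool) × (Fin n × Fin R → Fin (k + 1) × (Fin n → Bool) → Bool)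

/-- the negative inputs -/
def inp (ω : (Fin n → Bool) → Dat n k R) (i : Idx n k R) : Bool :=
  i.2.elim (fun a => (ω i.1).2 a.1 a.2) fun c => c.2.elim (fun _ => decide (c.1 ≠ (ω i.1).1))
    fun _ => false

/-- the positive inputs -/
def yes (enc : ℤ → Fin (n * (k + 1) + 2) → Bool) (b : Fin n → Bool)
    (ω : (Fin n → Bool) → Dat n k R) (i : Idx n k R) : Bool :=
  if i.1 = b ∧ lab i = some (ω b).1 then i.2.elim (fun _ => false) fun c => c.2.elim (fun _ => true)
    (Sum.elim (fun a => (ω a.1).1 a.2) fun a => enc (tab ((ω b).2 a.1) a.2.1) a.2.2)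
  else inp ω i

theorem classical_part {enc : ℤ → Fin (n * (k + 1) + 2) → Bool}
    (hc : ∀ z, |z| ≤ 2 ^ (n * (k + 1)) → dec (enc z) = z)
    (D : Bool → (Fin (k + 1) × (Fin n → Bool) → Bool) → ℝ) (hD : ∀ b, IsP (D b)) (L : ℕ) {δ : ℝ}
    (hδ : ∀ f : (Fin (k + 1) × (Fin n → Bool) → Bool) → Bool, Dep (fun i x => x i) L f →
      |∑ x, D true x * ind (f x) - ∑ x, D false x * ind (f x)| ≤ δ)
    {π m : ℝ} (hν : 0 < ν)
    (h1 : π ≤ ∑ x, D true x * if γ ≤ Phi (Hm μ) μ (fun _ => false) x ^ 2 then 1 else 0)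
    (h0 : ∑ x, D false x * Phi (Hm μ) μ (fun _ => false) x ^ 2 = m)
    (hg : n * ((1 - π) ^ R + R * (m / ν)) ≤ 1 / 10)
    {N : ℕ} (e : Idx n k R ≃ Fin N) {r : ℕ}
    (hr : RandomizedComputes (fun y => fn dec μ γ ν fun i => y (e i)) r) :
    (3 / 10 - L / 2 ^ n - n * R * δ) * 2 ^ n * (L + 1) ≤ r := by
  have := lower_bound (fun (a : (Fin n × Fin R) × Fin (k + 1) × (Fin n → Bool))
      (F : Fin n × Fin R → Fin (k + 1) × (Fin n → Bool) → Bool) => F a.1 a.2)
    (fun i => (e.symm i).1) (fun i => lab (e.symm i)) _ (fun ω i => inp ω (e.symm i))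
    (fun b ω i => yes enc b ω (e.symm i))
    (fun y => decide (∀ i, okb γ ν (y.1 i)
      (fun c => Phi (Hm μ) μ (fun _ => false) (y.2 (i, c))) = true))
    ?_ ?_ ?_ ?_ (fun α F => ∏ l, D (α l.1) (F l)) ?_ (fun F => ∏ l, D false (F l)) ?_ L
    (n * R * δ) ?_ ?_ hr
  · simpa using this
  · intro ω
    simp only [Equiv.symm_apply_apply, fn, decide_eq_false_iff_not]
    rintro ⟨j, α, h⟩
    simpa [ver, inp] using h (.inl (ω j).1)
  · intro b ω h
    simp only [Equiv.symm_apply_apply, fn, decide_eq_true_eq] at h ⊢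
    have e1 : ∀ l, inst (yes enc b ω) b l = (ω b).2 l := fun l => by
      funext a; simp [inst, yes, lab, inp]
    have e2 : ∀ l p, tb dec b (ω b).1 l p (yes enc b ω) = tab ((ω b).2 l) p := fun l p => by
      simp only [tb, yes, lab, Sum.elim_inr, and_self, if_true]
      exact hc _ (abs_tab _ _)
    refine ⟨b, (ω b).1, ?_⟩
    rintro (β | v | ⟨l, p⟩ | i)
    · by_cases hβ : β = (ω b).1 <;> simp [ver, yes, lab, inp, hβ]
    · by_cases hv : v = b <;> simp [ver, kill, yes, lab, inp, hv]
    · simp only [ver, e1, e2, decide_eq_true_eq]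
      exact tab_rule _ _
    · simpa only [ver, e2, Phi_eq_tab] using h i
  · intro b ω i hi
    simp only [yes, hi, if_false]
  · intro b ω
    refine ⟨fun F i => if (e.symm i).1 = b then (e.symm i).2.elim (fun a => F a.1 a.2)
      fun c => c.2.elim (fun _ => true) fun _ => false else inp ω (e.symm i), ?_, ?_, ?_⟩
    · intro i hi
      exact ⟨inp ω (e.symm i), fun F => if_neg hi⟩
    · intro i
      by_cases hi : (e.symm i).1 = b
      · simp only [hi, if_true]
        rcases (e.symm i).2 with a | c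
        · exact .inr ⟨a, fun F => rfl⟩
        · exact .inl ⟨_, fun F => rfl⟩
      · exact .inl ⟨inp ω (e.symm i), fun F => if_neg hi⟩
    · intro α F i
      beta_reduce
      generalize e.symm i = i
      obtain ⟨j, a | ⟨β, c | c⟩⟩ := i <;> by_cases hj : j = b <;> simp [inp, lab, hj]
  · intro α
    exact ⟨fun F => prod_nonneg fun l _ => (hD _).1 _, by
      simpa [Ex] using Ex_const (p := fun l : Fin n × Fin R => D (α l.1)) (fun l => (hD _).2) 1⟩
  · exact ⟨fun F => prod_nonneg fun l _ => (hD _).1 _, by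
      simpa [Ex] using Ex_const (p := fun l : Fin n × Fin R => D false) (fun l => (hD _).2) 1⟩
  · intro α g hg
    simpa [Ex] using hybrid D hD L hδ (fun l : Fin n × Fin R => α l.1) hg
  · intro α
    have := good_prob (R := R) D hD _ hν h1 h0 α
    simp only [Ex] at this
    linarith

end Crest.Agent.R350
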