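import Crest.Agent.R350.QF

set_option autoImplicit false
set_option linter.unusedSectionVars false
open Finset

namespace Crest.Agent.R350

variable {ι Y Z : Type} {q q' : ℕ} {E : (ι → Bool) → (Y → ℝ) → ℝ}

/-- coins that a quantum algorithm can flip -/
def RB (q : ℕ) (p : (ι → Bool) → ℝ) : Prop :=
  Rz q (fun x (φ : Bool → ℝ) => p x * φ true + (1 - p x) * φ false)

/-- functions that an algorithm computes exactly -/
def Cmp (q : ℕ) (g : (ι → Bool) → Y) : Prop := Rz q (fun x (φ : Y → ℝ) => φ (g x))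

variable {p p' : (ι → Bool) → ℝ}

lemma Rz.toRB {E : (ι → Bool) → (Bool → ℝ) → ℝ} (h : Rz q E) : RB q (fun x => E x ind) :=
  h.congr fun x φ => by
    have := h.lin x (φ false) (φ true - φ false) ind
    rw [show (fun y => φ false + (φ true - φ false) * ind y) = φ from
      funext fun y => by cases y <;> simp] at this
    rw [this]; ring

lemma RB.nonneg (h : RB q p) (x : ι → Bool) : 0 ≤ p x := by
  simpa using Rz.mono h x (φ := fun _ => 0) ind_nonneg

lemma RB.le_one (h : RB q p) (x : ι → Bool) : p x ≤ 1 := by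
  simpa using Rz.mono h x (ψ := fun _ => 1) ind_le_one

lemma RB.le (h : RB q p) (hq : q ≤ q') : RB q' p := Rz.le h hq

lemma RB.not (h : RB q p) : RB q (fun x => 1 - p x) :=
  (Rz.map h (fun b => !b)).congr fun x φ => by simp; ring

lemma RB.one : RB q (fun _ : ι → Bool => (1 : ℝ)) :=
  ((Rz.pure true).le (Nat.zero_le q)).congr fun x φ => by simp

lemma RB.zero : RB q (fun _ : ι → Bool => (0 : ℝ)) := by simpa using (RB.one (q := q)).not

lemma Rz.bindB (h : Rz q E) {p : Y → (ι → Bool) → ℝ} (hp : ∀ y, RB q' (p y)) :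
    RB (q + q') (fun x => E x (fun y => p y x)) := by
  simpa using (h.bind hp).toRB

lemma RB.mul (h : RB q p) (h' : RB q' p') : RB (q + q') (fun x => p x * p' x) := by
  simpa using Rz.bindB h (p := fun b => if b then p' else fun _ => 0) (q' := q') fun b => by
    cases b
    · exact RB.zero
    · exact h'

lemma RB.prod {κ : Type*} (s : Finset κ) {p : κ → (ι → Bool) → ℝ} (h : ∀ i, RB q (p i)) :
    RB (s.card * q) (fun x => ∏ i ∈ s, p i x) := by
  classical
  induction s using Finset.induction_on with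
  | empty => simpa using RB.one
  | insert a s ha ih =>
    simp only [prod_insert ha, card_insert_of_notMem ha]
    exact ((h a).mul ih).le (by ring_nf; rfl)

lemma RB.pow (h : RB q p) (n : ℕ) : RB (n * q) (fun x => p x ^ n) := by
  simpa using RB.prod (range n) (p := fun _ => p) fun _ => h

lemma Cmp.toRB {g : (ι → Bool) → Bool} (h : Cmp q g) : RB q (fun x => ind (g x)) := Rz.toRB h

lemma Cmp.bind {g : (ι → Bool) → Y} (h : Cmp q g) {f : Y → (ι → Bool) → Z}
    (hf : ∀ y, Cmp q' (f y)) : Cmp (q + q') (fun x => f (g x) x) := Rz.bind h hf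

lemma Cmp.map {g : (ι → Bool) → Y} (h : Cmp q g) (f : Y → Z) : Cmp q (fun x => f (g x)) :=
  Rz.map h f

lemma Cmp.le {g : (ι → Bool) → Y} (h : Cmp q g) (hq : q ≤ q') : Cmp q' g := Rz.le h hq

lemma Cmp.const (y : Y) : Cmp q (fun _ : ι → Bool => y) := (Rz.pure y).le (Nat.zero_le q)

lemma Cmp.read (i : ι) : Cmp 1 (fun x : ι → Bool => x i) := Rz.read i

lemma Cmp.map₂ {X : Type} {g : (ι → Bool) → Y} (h : Cmp q g) {g' : (ι → Bool) → Z}
    (h' : Cmp q' g') (f : Y → Z → X) : Cmp (q + q') (fun x => f (g x) (g' x)) :=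
  h.bind (f := fun y x => f y (g' x)) fun y => h'.map (f y)

lemma Cmp.pi : ∀ {n : ℕ} {g : Fin n → (ι → Bool) → Y}, (∀ i, Cmp q (g i)) →
    Cmp (n * q) (fun x i => g i x)
  | 0, g, _ => by
    rw [show (fun x (i : Fin 0) => g i x) = fun _ => Fin.elim0 from
      funext fun _ => funext fun i => i.elim0]
    exact Cmp.const _
  | n + 1, g, h => by
    have := (h 0).map₂ (Cmp.pi (g := fun i => g i.succ) fun i => h i.succ)
      (fun y α => (Fin.cons y α : Fin (n + 1) → Y))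
    rw [show (fun x (i : Fin (n + 1)) => g i x)
      = fun x => (Fin.cons (g 0 x) (fun i => g i.succ x) : Fin (n + 1) → Y) from
      funext fun x => (Fin.cons_self_tail _).symm]
    exact this.le (by ring_nf; rfl)

lemma Rz.pi : ∀ {n : ℕ} {E : Fin n → (ι → Bool) → (Y → ℝ) → ℝ}, (∀ i, Rz q (E i)) →
    ∃ E' : (ι → Bool) → ((Fin n → Y) → ℝ) → ℝ, Rz (n * q) E' ∧
      ∀ x (φ : Fin n → Y → ℝ), E' x (fun α => ∏ i, φ i (α i)) = ∏ i, E i x (φ i)
  | 0, _, _ => ⟨_, (Rz.pure Fin.elim0).le (Nat.zero_le _), fun x φ => by simp⟩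
  | n + 1, E, h => by
    obtain ⟨E', h1, h2⟩ := Rz.pi (E := fun i => E i.succ) fun i => h i.succ
    refine ⟨_, ((h 0).bind fun y => h1.map fun α => (Fin.cons y α : Fin (n + 1) → Y)).le
      (by ring_nf; rfl), fun x φ => ?_⟩
    simp only [Fin.prod_univ_succ, Fin.cons_zero, Fin.cons_succ, h1.smul,
      h2 x fun i => φ i.succ]
    rw [mul_comm, ← (h 0).smul]
    simp only [mul_comm]

lemma Rz.unif (J : Type) [Fintype J] [Nonempty J] :
    Rz 0 (fun (_ : ι → Bool) (φ : J → ℝ) => ∑ j, (Fintype.card J : ℝ)⁻¹ * φ j) :=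
  Rz.dist ⟨fun _ => by positivity, by simp⟩

lemma Rz.iter (h : Rz q E) (G : Y → Bool) (r : ℕ) : ∃ E', Rz (3 ^ r * q) E' ∧
    ∀ x θ, Real.sin θ ^ 2 = E x (fun y => ind (G y)) → ∃ g, 0 ≤ g ∧
      (∀ φ : Y → ℝ, (∀ y, G y = false → φ y = 0) → E' x φ = g * E x φ) ∧
      g * E x (fun y => ind (G y)) = Real.sin (3 ^ r * θ) ^ 2 := by
  induction r with
  | zero => exact ⟨E, by simpa using h, fun x θ e => ⟨1, by simp, by simp, by simp [e]⟩⟩
  | succ r ih =>
    obtain ⟨E', h1, h2⟩ := ih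
    refine ⟨_, (h1.amp G).le (by ring_nf; rfl), fun x θ e => ?_⟩
    obtain ⟨g, g0, g1, g2⟩ := h2 x θ e
    rw [g1 (fun y => ind (G y)) (fun y hy => by simp [hy]), g2]
    refine ⟨(3 - 4 * Real.sin (3 ^ r * θ) ^ 2) ^ 2 * g, by positivity, fun φ hφ => ?_, ?_⟩
    · rw [mul_assoc, ← g1 φ hφ, ← h1.smul]
      congr 1
      funext y
      cases hy : G y <;> simp [hφ y, hy]
    · rw [mul_assoc, g2, pow_succ 3 r, mul_comm _ (3 : ℝ), mul_assoc, Real.sin_three_mul]
      ring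

lemma Rz.boost (h : Rz q E) (G : Y → Bool) (ρ : ℕ) : ∃ E', Rz (3 ^ ρ * q) E' ∧
    ∀ x, ∃ g, 0 ≤ g ∧ (∀ φ : Y → ℝ, (∀ y, G y = false → φ y = 0) → E' x φ = g * E x φ) ∧
      (1 ≤ 9 ^ ρ * E x (fun y => ind (G y)) →
        (4 * (ρ + 1) : ℝ)⁻¹ ≤ g * E x (fun y => ind (G y))) := by
  choose F h1 h2 using h.iter G
  have h3 := (Rz.unif (Fin (ρ + 1))).bind (q' := 3 ^ ρ * q) (F := fun r => F r)
    fun r => (h1 r).le (Nat.mul_le_mul_right _ (Nat.pow_le_pow_right (by norm_num) (by omega)))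
  refine ⟨_, h3.le (by simp), fun x => ?_⟩
  set a := E x (fun y => ind (G y))
  have a0 : 0 ≤ a := (h.map G).toRB.nonneg x
  have a1 : a ≤ 1 := (h.map G).toRB.le_one x
  set θ := Real.arcsin (√a)
  have hs : Real.sin θ = √a :=
    Real.sin_arcsin (by linarith [Real.sqrt_nonneg a]) (Real.sqrt_le_one.2 a1)
  choose g g0 g1 g2 using fun r => h2 r x θ (by rw [hs, Real.sq_sqrt a0])
  refine ⟨∑ r : Fin (ρ + 1), (Fintype.card (Fin (ρ + 1)) : ℝ)⁻¹ * g r,
    sum_nonneg fun r _ => mul_nonneg (by positivity) (g0 r), fun φ hφ => ?_, fun ha => ?_⟩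
  · simp only [g1 _ φ hφ, sum_mul, mul_assoc]
  · have θ0 : 0 ≤ θ := Real.arcsin_nonneg.2 (Real.sqrt_nonneg a)
    have hex : Real.pi / 6 ≤ 3 ^ ρ * θ := by
      have h4 : 1 ≤ 3 ^ ρ * √a := by
        refine le_of_sq_le_sq (by rwa [mul_pow, Real.sq_sqrt a0, ← pow_mul, mul_comm ρ, pow_mul,
          one_pow, show (3 : ℝ) ^ 2 = 9 by norm_num]) (by positivity)
      have h5 : √a ≤ θ := hs ▸ Real.sin_le θ0
      have h6 : 3 ^ ρ * √a ≤ 3 ^ ρ * θ := by gcongr
      linarith [Real.pi_le_four]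
    classical
    have hfind := Nat.find_spec (⟨ρ, hex⟩ : ∃ r : ℕ, Real.pi / 6 ≤ 3 ^ r * θ)
    have hle := Nat.find_min' (⟨ρ, hex⟩ : ∃ r : ℕ, Real.pi / 6 ≤ 3 ^ r * θ) hex
    have hmin := fun m => Nat.find_min (⟨ρ, hex⟩ : ∃ r : ℕ, Real.pi / 6 ≤ 3 ^ r * θ) (m := m)
    generalize Nat.find (⟨ρ, hex⟩ : ∃ r : ℕ, Real.pi / 6 ≤ 3 ^ r * θ) = r at hfind hle hmin
    have hup : 3 ^ r * θ ≤ Real.pi / 2 := by
      rcases r with _ | r
      · simpa using Real.arcsin_le_pi_div_two _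
      · have := not_le.1 (hmin r (by omega))
        rw [pow_succ]; linarith
    have h7 : 1 / 2 ≤ Real.sin (3 ^ r * θ) := by
      rw [← Real.sin_pi_div_six]
      exact Real.sin_le_sin_of_le_of_le_pi_div_two (by linarith [Real.pi_pos]) hup hfind
    rw [sum_mul]
    refine le_trans ?_ (single_le_sum (f := fun r : Fin (ρ + 1) =>
      (Fintype.card (Fin (ρ + 1)) : ℝ)⁻¹ * g r * a)
      (fun r _ => mul_nonneg (mul_nonneg (by positivity) (g0 r)) a0) (mem_univ ⟨r, by omega⟩))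
    simp only [mul_assoc, Fintype.card_fin, mul_inv, Nat.cast_add, Nat.cast_one]
    rw [mul_comm, show g r * a = _ from g2 r]
    gcongr
    nlinarith

end Crest.Agent.R350
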