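import Crest.Agent.R350.Hid4
import Crest.Agent.R350.QAlg

set_option autoImplicit false
set_option linter.unusedSectionVars false
open Finset Matrix

namespace Crest.Agent.R350

variable {n k : ℕ}

/-- the integer sign of a bit -/
def sz (b : Bool) : ℤ := if b then -1 else 1

@[simp] lemma sz_cast (b : Bool) : (sz b : ℝ) = sg b := by cases b <;> simp [sz]
lemma abs_sz (b : Bool) : |sz b| = 1 := by cases b <;> simp [sz]

/-- the Hadamard matrix -/
def Hz (u v : Fin n → Bool) : ℤ := ∏ l, sz (u l && v l)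

/-- the normalised Hadamard matrix -/
noncomputable def Hm (μ : ℝ) (u v : Fin n → Bool) : ℝ := μ * Hz u v

lemma Hm_symm (μ : ℝ) (u v : Fin n → Bool) : Hm μ u v = Hm μ v u := by
  simp [Hm, Hz, Bool.and_comm]

lemma Hm_zero (μ : ℝ) (u : Fin n → Bool) : Hm μ u (fun _ => false) = μ := by simp [Hm, Hz]

lemma abs_Hm {μ : ℝ} (h : 0 ≤ μ) (u v : Fin n → Bool) : |Hm μ u v| ≤ μ := by
  simp [Hm, Hz, abs_mul, abs_prod, abs_sg, abs_of_nonneg h]

lemma Hm_col {μ : ℝ} (h : μ ^ 2 * 2 ^ n = 1) (v v' : Fin n → Bool) :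
    ∑ u, Hm μ u v * Hm μ u v' = if v = v' then 1 else 0 := by
  have e : ∑ u : Fin n → Bool, ∏ l, (sg (u l && v l) * sg (u l && v' l))
      = ∏ l, ∑ b : Bool, sg (b && v l) * sg (b && v' l) := by
    rw [Finset.prod_univ_sum, Fintype.piFinset_univ]
  have e2 : ∀ u, Hm μ u v * Hm μ u v' = μ ^ 2 * ∏ l, (sg (u l && v l) * sg (u l && v' l)) := by
    intro u
    simp only [Hm, Hz, prod_mul_distrib]; push_cast; simp only [sz_cast]; ring
  simp only [e2, ← mul_sum, e]
  split_ifs with hv
  · subst hv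
    simp only [sg_mul_self]
    simpa using h
  · obtain ⟨l, hl⟩ := Function.ne_iff.1 hv
    rw [prod_eq_zero (mem_univ l), mul_zero]
    revert hl
    cases v l <;> cases v' l <;> simp

lemma Hm_orth {μ : ℝ} (h : μ ^ 2 * 2 ^ n = 1) (y : (Fin n → Bool) → ℝ) :
    ∑ u, (∑ v, Hm μ u v * y v) ^ 2 = ∑ v, y v ^ 2 := by
  simp only [sq, sum_mul_sum]
  rw [sum_comm]
  refine sum_congr rfl fun v _ => ?_
  rw [sum_comm, sum_congr rfl (g := fun v' => (if v = v' then 1 else 0) * (y v * y v')) ?_]
  · simp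
  · intro v' _
    rw [← Hm_col h, sum_mul]
    exact sum_congr rfl fun u _ => by ring

lemma RB_Phi {μ : ℝ} (h : μ ^ 2 * 2 ^ n = 1) :
    RB (k + 1) (fun x : Fin (k + 1) × (Fin n → Bool) → Bool =>
      Phi (Hm μ) μ (fun _ => false) x ^ 2) := by
  set U : Matrix (Fin n → Bool) (Fin n → Bool) ℝ := Matrix.of (Hm μ) with hU
  have hUo : Uᵀ * U = 1 := by
    ext v v'
    simpa [mul_apply, hU, one_apply] using Hm_col h v v'
  have key : ∀ j ≤ k + 1, ∃ W : (Fin (k + 1) × (Fin n → Bool) → Bool) → Matrix _ _ ℝ, QF j W ∧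
      ∀ x v, W x v (fun _ => false) = wv (Hm μ) μ (ex fun i => sg (x i)) j v := by
    intro j hj
    induction j with
    | zero => exact ⟨fun _ => U, QF.const hUo, fun x v => Hm_zero μ v⟩
    | succ j ih =>
      obtain ⟨W, h1, h2⟩ := ih (by omega)
      lift j to Fin (k + 1) using hj
      refine ⟨fun x => U * Dm (fun u => some (j, u)) x * W x, ⟨U, hUo, _, W, h1, fun _ => rfl⟩,
        fun x v => ?_⟩
      simp only [wv, ex_val, Matrix.mul_assoc, Dm]
      simp only [mul_apply (M := U), diagonal_mul, h2, Option.elim_some]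
      exact sum_congr rfl fun u _ => by rw [hU, of_apply, Hm_symm]
  obtain ⟨W, h1, h2⟩ := key (k + 1) le_rfl
  have h3 : Rz (k + 1) (fun x (φ : Bool → ℝ) =>
      ∑ e, W x e (fun _ => false) ^ 2 * φ (decide (e = fun _ => false))) :=
    ⟨_, _, _, W, _, _, h1, fun _ _ => rfl⟩
  simpa [ind, h2, Phi] using h3.toRB

/-- one layer of the fast transform -/
def lay (l : ℕ) (y : (Fin n → Bool) → ℤ) (v : Fin n → Bool) : ℤ :=
  if h : l < n then y (Function.update v ⟨l, h⟩ false)
    + sz (v ⟨l, h⟩) * y (Function.update v ⟨l, h⟩ true) else y v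

/-- several layers of the fast transform -/
def lays (y : (Fin n → Bool) → ℤ) : ℕ → (Fin n → Bool) → ℤ
  | 0 => y
  | l + 1 => lay l (lays y l)

lemma lays_eq (y : (Fin n → Bool) → ℤ) (l : ℕ) (hl : l ≤ n) (v : Fin n → Bool) :
    lays y l v = ∑ u, (∏ i : Fin n, if i.val < l then sz (u i && v i)
      else if u i = v i then 1 else 0) * y u := by
  induction l generalizing v with
  | zero =>
    rw [sum_eq_single v]
    · simp [lays]
    · intro u _ hu
      obtain ⟨i, hi⟩ := Function.ne_iff.1 hu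
      rw [prod_eq_zero (mem_univ i) (by simp [hi]), zero_mul]
    · simp
  | succ l ih =>
    have h : l < n := hl
    simp only [lays, lay, h, dif_pos, ih h.le, mul_sum, ← sum_add_distrib, ← mul_assoc, ← add_mul]
    refine sum_congr rfl fun u _ => ?_
    congr 1
    simp only [Fintype.prod_eq_mul_prod_subtype_ne _ (⟨l, h⟩ : Fin n), Function.update_self,
      lt_irrefl, if_false, Nat.lt_succ_self, if_true]
    have e : ∀ b, ∏ i : {i : Fin n // i ≠ ⟨l, h⟩}, (if i.1.val < l then
        sz (u i && Function.update v ⟨l, h⟩ b i) else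
        if u i = Function.update v ⟨l, h⟩ b i then 1 else 0)
        = ∏ i : {i : Fin n // i ≠ ⟨l, h⟩}, (if i.1.val < l + 1 then sz (u i && v i) else
          if u i = v i then 1 else 0) := fun b => prod_congr rfl fun i _ => by
      have : i.1.val ≠ l := fun e => i.2 (Fin.ext e)
      rw [Function.update_of_ne i.2]
      exact if_congr (by omega) rfl rfl
    rw [e, e]
    cases u ⟨l, h⟩ <;> cases v ⟨l, h⟩ <;> simp [sz]

lemma lays_n (y : (Fin n → Bool) → ℤ) (v : Fin n → Bool) : lays y n v = ∑ u, Hz u v * y u := by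
  simp [lays_eq y n le_rfl, Hz]

lemma abs_lays {y : (Fin n → Bool) → ℤ} {B : ℤ} (h : ∀ v, |y v| ≤ B) (l : ℕ) (v : Fin n → Bool) :
    |lays y l v| ≤ 2 ^ l * B := by
  induction l generalizing v with
  | zero => simpa [lays] using h v
  | succ l ih =>
    simp only [lays, lay]
    split_ifs
    · refine (abs_add_le _ _).trans ?_
      rw [abs_mul, abs_sz, one_mul, pow_succ]
      linarith [ih (Function.update v ⟨l, ‹_›⟩ false), ih (Function.update v ⟨l, ‹_›⟩ true)]
    · rw [pow_succ]
      linarith [ih v, abs_nonneg (lays y l v)]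

/-- the integer form of the circuit vectors -/
def wz (x : Fin (k + 1) × (Fin n → Bool) → Bool) : ℕ → (Fin n → Bool) → ℤ :=
  wv Hz 1 (ex fun i => sz (x i))

lemma wv_eq_wz (μ : ℝ) (x : Fin (k + 1) × (Fin n → Bool) → Bool) (j : ℕ) (v : Fin n → Bool) :
    wv (Hm μ) μ (ex fun i => sg (x i)) j v = μ ^ (j + 1) * wz x j v := by
  induction j generalizing v with
  | zero => simp [wv, wz]
  | succ j ih =>
    simp only [wv, ih]
    simp only [wz, wv, Hm]
    push_cast
    rw [mul_sum]
    refine sum_congr rfl fun u _ => ?_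
    have : ((ex (fun i => sz (x i)) j u : ℤ) : ℝ) = ex (fun i => sg (x i)) j u := by
      unfold ex; split_ifs <;> simp
    rw [this]; ring

/-- positions of the tableau -/
abbrev Pos (k n : ℕ) : Type := Fin (k + 1) × Fin (n + 1) × (Fin n → Bool)

/-- the correct tableau -/
def tab (x : Fin (k + 1) × (Fin n → Bool) → Bool) (p : Pos k n) : ℤ :=
  lays (fun u => sz (x (p.1, u)) * wz x p.1 u) p.2.1 p.2.2

lemma tab_last (x : Fin (k + 1) × (Fin n → Bool) → Bool) (j : Fin (k + 1)) (v : Fin n → Bool) :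
    tab x (j, Fin.last n, v) = wz x (j + 1) v := by
  simp [tab, lays_n, wz, wv, ex_val]

lemma abs_tab (x : Fin (k + 1) × (Fin n → Bool) → Bool) (p : Pos k n) :
    |tab x p| ≤ 2 ^ (n * (k + 1)) := by
  have h1 : ∀ (j : Fin (k + 1)), (∀ v, |wz x j v| ≤ 2 ^ (n * j)) → ∀ (l : Fin (n + 1)) v,
      |tab x (j, l, v)| ≤ 2 ^ (n * (j + 1)) := by
    intro j h l v
    refine (abs_lays (B := 2 ^ (n * j)) (fun u => by rw [abs_mul, abs_sz, one_mul]; exact h u)
      _ _).trans ?_
    rw [← pow_add]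
    exact pow_le_pow_right₀ (by norm_num) (by have := l.2; simp only; nlinarith)
  have h2 : ∀ (j : Fin (k + 1)) v, |wz x j v| ≤ 2 ^ (n * j) := by
    intro j
    induction j using Fin.induction with
    | zero => simp [wz, wv]
    | succ j ih =>
      intro v
      have := h1 j.castSucc ih (Fin.last n) v
      rwa [tab_last] at this
  exact (h1 p.1 (h2 p.1) p.2.1 p.2.2).trans
    (pow_le_pow_right₀ (by norm_num) (Nat.mul_le_mul_left _ p.1.2))

/-- the positions a tableau entry is computed from -/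
def pre (b : Bool) (p : Pos k n) : Pos k n :=
  Fin.cases (Fin.cases p (fun j => (j.castSucc, Fin.last n, p.2.2)) p.1)
    (fun l => (p.1, l.castSucc, Function.update p.2.2 l b)) p.2.1

/-- the rule computing a tableau entry -/
def rule (p : Pos k n) (b : Bool) (s t : ℤ) : ℤ :=
  Fin.cases (sz b * Fin.cases 1 (fun _ => s) p.1) (fun l => s + sz (p.2.2 l) * t) p.2.1

lemma tab_rule (x : Fin (k + 1) × (Fin n → Bool) → Bool) (p : Pos k n) :
    tab x p = rule p (x (p.1, p.2.2)) (tab x (pre false p)) (tab x (pre true p)) := by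
  obtain ⟨j, l, v⟩ := p
  induction l using Fin.cases with
  | zero =>
    induction j using Fin.cases with
    | zero => simp [tab, rule, lays, wz, wv]
    | succ j =>
      simp only [rule, pre, Fin.cases_zero, Fin.cases_succ, tab_last]
      simp [tab, lays]
  | succ l => simp [tab, rule, pre, lays, lay]

lemma eq_tab (x : Fin (k + 1) × (Fin n → Bool) → Bool) (T : Pos k n → ℤ)
    (h : ∀ p, T p = rule p (x (p.1, p.2.2)) (T (pre false p)) (T (pre true p))) (p : Pos k n) :
    T p = tab x p := by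
  obtain ⟨j, l, v⟩ := p
  have key : ∀ j, (∀ v, T (j, 0, v) = tab x (j, 0, v)) → ∀ l v, T (j, l, v) = tab x (j, l, v) := by
    intro j h0 l
    induction l using Fin.induction with
    | zero => exact h0
    | succ l ih => intro v; rw [h, tab_rule]; simp [pre, rule, ih]
  revert l v
  induction j using Fin.induction with
  | zero => exact key _ fun v => by rw [h, tab_rule]; simp [rule]
  | succ j ih => exact key _ fun v => by rw [h, tab_rule]; simp [pre, rule, ih]

lemma Phi_eq_tab (μ : ℝ) (x : Fin (k + 1) × (Fin n → Bool) → Bool) :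
    Phi (Hm μ) μ (fun _ => false) x
      = μ ^ (k + 2) * tab x (Fin.last k, Fin.last n, fun _ => false) := by
  rw [Phi, wv_eq_wz, tab_last, Fin.val_last]

lemma exists_code (B : ℕ) : ∃ (dec : (Fin (B + 2) → Bool) → ℤ) (enc : ℤ → Fin (B + 2) → Bool),
    ∀ z, |z| ≤ 2 ^ B → dec (enc z) = z := by
  classical
  obtain ⟨e⟩ : Nonempty (Icc (-(2 ^ B : ℤ)) (2 ^ B) ↪ (Fin (B + 2) → Bool)) := by
    refine Function.Embedding.nonempty_of_card_le ?_
    simp only [Fintype.card_coe, Int.card_Icc, Fintype.card_fun, Fintype.card_bool,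
      Fintype.card_fin]
    have : (0 : ℤ) < 2 ^ B := by positivity
    rw [Int.toNat_le]
    push_cast
    rw [pow_add]; linarith
  have : Nonempty (Icc (-(2 ^ B : ℤ)) (2 ^ B)) := ⟨⟨0, by simp⟩⟩
  refine ⟨fun y => (Function.invFun e y).1,
    fun z => if h : z ∈ Icc (-(2 ^ B : ℤ)) (2 ^ B) then e ⟨z, h⟩ else fun _ => false, fun z hz => ?_⟩
  have h : z ∈ Icc (-(2 ^ B : ℤ)) (2 ^ B) := mem_Icc.2 (abs_le.1 hz)
  simp only [h, dif_pos]
  rw [Function.leftInverse_invFun e.injective]

end Crest.Agent.R350
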