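import Mathlib

set_option autoImplicit false
open Finset MeasureTheory ProbabilityTheory MvPolynomial

namespace Crest.Agent.R350

lemma integrable_pow_gauss (n : ℕ) : Integrable (fun x : ℝ => x ^ n) (gaussianReal 0 1) :=
  integrable_pow_of_mem_interior_integrableExpSet (X := fun x : ℝ => x) (by simp) n

lemma iter_mul {M : ℝ → ℝ} (hM : ContDiff ℝ ⊤ M) (n : ℕ) :
    iteratedDeriv n (fun t => t * M t)
      = fun t => t * iteratedDeriv n M t + n * iteratedDeriv (n - 1) M t := by
  have hd : ∀ m t, HasDerivAt (iteratedDeriv m M) (iteratedDeriv (m + 1) M t) t := fun m t => by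
    rw [iteratedDeriv_succ]
    exact ((hM.differentiable_iteratedDeriv m (by simp)) t).hasDerivAt
  induction n with
  | zero => simp
  | succ n ih =>
    rw [iteratedDeriv_succ, ih]
    funext t
    have h := ((hasDerivAt_id t).mul (hd n t)).add ((hd (n - 1) t).const_mul (n : ℝ))
    refine h.deriv.trans ?_
    rcases n with _ | n
    · simp; ring
    · simp; ring

/-- Gaussian moments -/
noncomputable def mom (n : ℕ) : ℝ := ∫ x, x ^ n ∂(gaussianReal 0 1)

lemma mom_succ (n : ℕ) : mom (n + 1) = n * mom (n - 1) := by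
  have h1 : ∀ m, mom m = iteratedDeriv m (fun t : ℝ => Real.exp (t ^ 2 / 2)) 0 := fun m => by
    have := iteratedDeriv_mgf_zero (X := fun x : ℝ => x) (μ := gaussianReal 0 1) (by simp) m
    rw [mgf_fun_id_gaussianReal] at this
    simp only [zero_mul, zero_add, NNReal.coe_one, one_mul] at this
    rw [this]; rfl
  have h2 : deriv (fun t : ℝ => Real.exp (t ^ 2 / 2)) = fun t => t * Real.exp (t ^ 2 / 2) := by
    funext t
    have := ((hasDerivAt_pow 2 t).div_const 2).exp
    rw [this.deriv]; simp; ring
  rw [h1, h1, iteratedDeriv_succ', h2, iter_mul (by fun_prop)]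
  simp

variable {σ : Type*} [Fintype σ] [DecidableEq σ]

/-- the standard Gaussian measure -/
noncomputable def gm (σ : Type*) [Fintype σ] : Measure (σ → ℝ) :=
  Measure.pi fun _ => gaussianReal 0 1

instance : IsProbabilityMeasure (gm σ) := by unfold gm; infer_instance

omit [DecidableEq σ] in
lemma eval_mono (α : σ →₀ ℕ) (a : ℝ) (g : σ → ℝ) :
    eval g (monomial α a) = a * ∏ i, g i ^ α i := by
  rw [eval_monomial, Finsupp.prod_fintype _ _ (by simp)]

omit [DecidableEq σ] in
lemma integrable_eval (P : MvPolynomial σ ℝ) : Integrable (fun g => eval g P) (gm σ) := by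
  induction P using MvPolynomial.induction_on' with
  | monomial α a =>
    simp only [eval_mono]
    exact (Integrable.fintype_prod (f := fun i x => x ^ α i)
      fun i => integrable_pow_gauss _).const_mul a
  | add P Q hP hQ => simp only [map_add]; exact hP.add hQ

/-- Gaussian expectation of a polynomial -/
noncomputable def GE : MvPolynomial σ ℝ →ₗ[ℝ] ℝ where
  toFun P := ∫ g, eval g P ∂gm σ
  map_add' P Q := by simp only [map_add]; exact integral_add (integrable_eval P) (integrable_eval Q)
  map_smul' c P := by simp only [smul_eval, integral_const_mul]; rfl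

omit [DecidableEq σ] in
lemma GE_apply (P : MvPolynomial σ ℝ) : GE P = ∫ g, eval g P ∂gm σ := rfl

omit [DecidableEq σ] in
lemma GE_C_mul (c : ℝ) (P : MvPolynomial σ ℝ) : GE (C c * P) = c * GE P := by
  rw [C_mul', map_smul, smul_eq_mul]

omit [DecidableEq σ] in
lemma GE_C (c : ℝ) : GE (C c : MvPolynomial σ ℝ) = c := by simp [GE_apply]

omit [DecidableEq σ] in
lemma GE_mono (α : σ →₀ ℕ) (a : ℝ) : GE (monomial α a) = a * ∏ i, mom (α i) := by
  simp only [GE_apply, eval_mono, integral_const_mul, gm]
  rw [integral_fintype_prod_eq_prod (f := fun i (x : ℝ) => x ^ α i)]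
  rfl

/-- Gaussian integration by parts -/
theorem stein (b : σ) (P : MvPolynomial σ ℝ) : GE (X b * P) = GE (pderiv b P) := by
  induction P using MvPolynomial.induction_on' with
  | monomial α a =>
    rw [X, monomial_mul, pderiv_monomial, GE_mono, GE_mono,
      Fintype.prod_eq_mul_prod_subtype_ne _ b, Fintype.prod_eq_mul_prod_subtype_ne _ b]
    have e1 : ∀ j : {j // j ≠ b}, (Finsupp.single b 1 + α : σ →₀ ℕ) j = α j := fun j => by
      simp [Finsupp.single_eq_of_ne j.2]
    have e2 : ∀ j : {j // j ≠ b}, (α - Finsupp.single b 1 : σ →₀ ℕ) j = α j := fun j => by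
      simp [Finsupp.single_eq_of_ne j.2]
    simp only [e1, e2, Finsupp.add_apply, Finsupp.single_eq_same, Finsupp.tsub_apply]
    rw [add_comm 1, mom_succ]
    ring
  | add P Q hP hQ => simp only [mul_add, map_add, hP, hQ]

omit [DecidableEq σ] in
lemma integrable_exp_lin (c : σ → ℝ) :
    Integrable (fun g : σ → ℝ => Real.exp (∑ i, c i * g i)) (gm σ) := by
  simp only [Real.exp_sum]
  exact Integrable.fintype_prod (f := fun i x => Real.exp (c i * x))
    fun i => integrable_exp_mul_gaussianReal _

omit [DecidableEq σ] in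
lemma integral_exp_lin (c : σ → ℝ) :
    ∫ g : σ → ℝ, Real.exp (∑ i, c i * g i) ∂gm σ = Real.exp (∑ i, c i ^ 2 / 2) := by
  simp only [Real.exp_sum, gm]
  rw [integral_fintype_prod_eq_prod (f := fun i (x : ℝ) => Real.exp (c i * x))]
  refine prod_congr rfl fun i _ => ?_
  have := congrFun (mgf_fun_id_gaussianReal (μ := 0) (v := 1)) (c i)
  simpa [mgf] using this

lemma pderiv_prod {κ : Type*} [DecidableEq κ] (b : σ) (s : Finset κ) (F : κ → MvPolynomial σ ℝ) :
    pderiv b (∏ i ∈ s, F i) = ∑ i ∈ s, pderiv b (F i) * ∏ j ∈ s.erase i, F j := by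
  induction s using Finset.induction_on with
  | empty => simp
  | insert a s ha ih =>
    rw [prod_insert ha, sum_insert ha, pderiv_mul, ih, erase_insert ha, mul_sum]
    congr 1
    refine sum_congr rfl fun i hi => ?_
    have : a ≠ i := by rintro rfl; exact ha hi
    rw [erase_insert_of_ne this, prod_insert (by simp [ha])]
    ring

end Crest.Agent.R350
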