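import Crest.Agent.R350.Basic

set_option autoImplicit false
open Finset

namespace Crest.Agent.R350

lemma taylor2 (X h : ℝ) (n : ℕ) :
    |(X + h) ^ (n + 2) - X ^ (n + 2) - (n + 2) * X ^ (n + 1) * h|
      ≤ (n + 2) ^ 2 * h ^ 2 * (|X| + |h|) ^ n := by
  induction n with
  | zero =>
    have : (X + h) ^ (0 + 2) - X ^ (0 + 2) - ((0 : ℕ) + 2) * X ^ (0 + 1) * h = h ^ 2 := by
      push_cast; ring
    rw [this, abs_of_nonneg (sq_nonneg h)]
    push_cast
    nlinarith [sq_nonneg h]
  | succ n ih =>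
    have e : (X + h) ^ (n + 1 + 2) - X ^ (n + 1 + 2) - ((n + 1 : ℕ) + 2) * X ^ (n + 1 + 1) * h
        = (X + h) * ((X + h) ^ (n + 2) - X ^ (n + 2) - (n + 2) * X ^ (n + 1) * h)
          + (n + 2) * X ^ (n + 1) * h ^ 2 := by
      push_cast; ring
    rw [e]
    have hs : 0 ≤ |X| + |h| := by positivity
    have h1 : |X + h| ≤ |X| + |h| := abs_add_le _ _
    have h2 : |X| ^ (n + 1) ≤ (|X| + |h|) ^ (n + 1) :=
      pow_le_pow_left₀ (abs_nonneg _) (by linarith [abs_nonneg h]) _
    have h3 : |(n + 2) * X ^ (n + 1) * h ^ 2| ≤ (n + 2) * (|X| + |h|) ^ (n + 1) * h ^ 2 := by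
      rw [abs_mul, abs_mul, abs_pow, abs_of_nonneg (sq_nonneg h),
        abs_of_nonneg (by positivity : (0 : ℝ) ≤ n + 2)]
      gcongr
    refine (abs_add_le _ _).trans ?_
    rw [abs_mul]
    have h4 : |X + h| * |(X + h) ^ (n + 2) - X ^ (n + 2) - (n + 2) * X ^ (n + 1) * h|
        ≤ (|X| + |h|) * ((n + 2) ^ 2 * h ^ 2 * (|X| + |h|) ^ n) := by gcongr
    have h5 : 0 ≤ (|X| + |h|) ^ (n + 1) * h ^ 2 := by positivity
    have h6 : (0 : ℝ) ≤ n := by positivity
    push_cast
    calc _ ≤ (|X| + |h|) * ((n + 2) ^ 2 * h ^ 2 * (|X| + |h|) ^ n)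
          + (n + 2) * (|X| + |h|) ^ (n + 1) * h ^ 2 := add_le_add h4 h3
      _ = ((n + 2) ^ 2 + (n + 2)) * ((|X| + |h|) ^ (n + 1) * h ^ 2) := by ring
      _ ≤ (n + 1 + 2) ^ 2 * ((|X| + |h|) ^ (n + 1) * h ^ 2) := by
          gcongr; nlinarith
      _ = _ := by ring

/-- the weight of one level -/
noncomputable def Wt (r d : ℕ) : ℝ := ((2 * r + 2 : ℝ) ^ 2 * 2 ^ (2 * r + 2) * d) ^ (r + 1)

lemma Wt_nonneg (r d : ℕ) : 0 ≤ Wt r d := by unfold Wt; positivity

lemma one_step (r d : ℕ) (hd : 1 ≤ d) (X Y : ℝ) {p φ : Bool → ℝ} (hp : IsP p)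
    (h0 : ∑ b, p b * φ b = 0) (h2 : ∀ b, |φ b| ≤ 2) :
    ∑ b, p b * (X + φ b * Y) ^ (2 * r + 2)
      ≤ (1 + 1 / d) * X ^ (2 * r + 2) + Wt r d * Y ^ (2 * r + 2) := by
  have hd' : (1 : ℝ) ≤ d := by exact_mod_cast hd
  set K : ℝ := (2 * r + 2 : ℝ) ^ 2 * 2 ^ (2 * r) * d with hK
  have hK1 : 1 ≤ K := by
    have : (0 : ℝ) ≤ r := by positivity
    have h1 : (1 : ℝ) ≤ (2 * r + 2 : ℝ) ^ 2 := by nlinarith
    have h3 : (1 : ℝ) ≤ 2 ^ (2 * r) := one_le_pow₀ (by norm_num)
    exact one_le_mul_of_one_le_of_one_le (one_le_mul_of_one_le_of_one_le h1 h3) hd'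
  set L := √K with hL
  have hL2 : L ^ 2 = K := Real.sq_sqrt (by linarith)
  have hL1 : 1 ≤ L := Real.one_le_sqrt.2 hK1
  set M := max |X| (L * (2 * |Y|)) with hM
  have hM0 : 0 ≤ M := le_max_of_le_left (abs_nonneg _)
  have hMq : M ^ (2 * r + 2) ≤ X ^ (2 * r + 2) + Wt r d * Y ^ (2 * r + 2) := by
    have e1 : |X| ^ (2 * r + 2) = X ^ (2 * r + 2) := Even.pow_abs ⟨r + 1, by ring⟩ X
    have e2 : (L * (2 * |Y|)) ^ (2 * r + 2) = Wt r d * Y ^ (2 * r + 2) := by
      rw [← mul_assoc, mul_pow, Even.pow_abs ⟨r + 1, by ring⟩ Y,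
        show 2 * r + 2 = 2 * (r + 1) by ring, pow_mul, mul_pow, hL2, Wt, hK]
      congr 2
      ring
    rw [← e1, ← e2]
    have : 0 ≤ (L * (2 * |Y|)) ^ (2 * r + 2) := by positivity
    have : 0 ≤ |X| ^ (2 * r + 2) := by positivity
    rcases max_choice |X| (L * (2 * |Y|)) with h | h <;> rw [hM, h] <;> linarith
  have key : ∀ b, (X + φ b * Y) ^ (2 * r + 2)
      ≤ X ^ (2 * r + 2) + (2 * r + 2) * X ^ (2 * r + 1) * Y * φ b + M ^ (2 * r + 2) / d := by
    intro b
    have t := (abs_le.1 (taylor2 X (φ b * Y) (2 * r))).2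
    have hh : |φ b * Y| ≤ 2 * |Y| := by rw [abs_mul]; gcongr; exact h2 b
    have hY : 0 ≤ 2 * |Y| := by positivity
    have h3 : L * |φ b * Y| ≤ M := le_max_of_le_right (by gcongr)
    have h4 : |φ b * Y| ≤ M := le_trans (le_mul_of_one_le_left (abs_nonneg _) hL1) h3
    have h5 : (|X| + |φ b * Y|) ^ (2 * r) ≤ (2 * M) ^ (2 * r) :=
      pow_le_pow_left₀ (by positivity) (by linarith [le_max_left |X| (L * (2 * |Y|))]) _
    have h6 : K * (φ b * Y) ^ 2 ≤ M ^ 2 := by
      rw [← hL2, ← sq_abs (φ b * Y), ← mul_pow]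
      exact pow_le_pow_left₀ (by positivity) h3 _
    have h7 : ((2 * r : ℕ) + 2 : ℝ) ^ 2 * (φ b * Y) ^ 2 * (|X| + |φ b * Y|) ^ (2 * r)
        ≤ M ^ (2 * r + 2) / d := by
      rw [le_div_iff₀ (by linarith)]
      calc _ ≤ ((2 * r : ℕ) + 2 : ℝ) ^ 2 * (φ b * Y) ^ 2 * (2 * M) ^ (2 * r) * d := by gcongr
        _ = (K * (φ b * Y) ^ 2) * M ^ (2 * r) := by rw [hK, mul_pow 2 M]; push_cast; ring
        _ ≤ M ^ 2 * M ^ (2 * r) := by gcongr
        _ = _ := by ring
    push_cast at t h7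
    linarith
  calc _ ≤ ∑ b, p b * (X ^ (2 * r + 2) + (2 * r + 2) * X ^ (2 * r + 1) * Y * φ b
        + M ^ (2 * r + 2) / d) := sum_le_sum fun b _ => mul_le_mul_of_nonneg_left (key b) (hp.1 b)
    _ = (∑ b, p b) * (X ^ (2 * r + 2) + M ^ (2 * r + 2) / d)
        + (2 * r + 2) * X ^ (2 * r + 1) * Y * ∑ b, p b * φ b := by
        simp only [Fintype.sum_bool]; ring
    _ = X ^ (2 * r + 2) + M ^ (2 * r + 2) / d := by rw [hp.2, h0]; ring
    _ ≤ X ^ (2 * r + 2) + (X ^ (2 * r + 2) + Wt r d * Y ^ (2 * r + 2)) / d := by gcongr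
    _ ≤ _ := by
      have h1 : 0 ≤ Wt r d * Y ^ (2 * r + 2) :=
        mul_nonneg (Wt_nonneg r d) (Even.pow_nonneg ⟨r + 1, by ring⟩ Y)
      have h3 : Wt r d * Y ^ (2 * r + 2) / d ≤ Wt r d * Y ^ (2 * r + 2) := div_le_self h1 hd'
      rw [add_div]
      have : X ^ (2 * r + 2) / d = 1 / d * X ^ (2 * r + 2) := by ring
      linarith

variable {ι : Type*} [Fintype ι] [DecidableEq ι]

lemma sum_split (i : ι) (g : Finset ι → ℝ) :
    ∑ S, g S = ∑ S, if i ∈ S then 0 else g S + g (insert i S) := by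
  have h1 : ∑ S, (if i ∈ S then g S else 0) = ∑ S, if i ∈ S then 0 else g (insert i S) := by
    rw [← sum_filter, ← sum_filter_add_sum_filter_not univ (fun S : Finset ι => i ∈ S)]
    rw [sum_eq_zero (s := univ.filter fun S : Finset ι => i ∈ S)
      (fun S hS => if_pos (mem_filter.1 hS).2), zero_add]
    refine sum_nbij' (fun S => S.erase i) (fun S => insert i S) (by simp) (by simp) ?_ ?_ ?_
    · intro S hS; exact insert_erase (by simpa using hS)
    · intro S hS; exact erase_insert (by simpa using hS)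
    · intro S hS
      rw [if_neg (by simp), insert_erase (by simpa using hS)]
  calc ∑ S, g S = ∑ S, ((if i ∈ S then g S else 0) + if i ∈ S then 0 else g S) :=
        sum_congr rfl fun S _ => by split_ifs <;> simp
    _ = _ := by
      rw [sum_add_distrib, h1, ← sum_add_distrib]
      exact sum_congr rfl fun S _ => by split_ifs <;> ring

theorem growth (r d : ℕ) (hd : 1 ≤ d) {e : ℕ} {f : (ι → Bool) → Bool}
    (h : Dep (fun (i : ι) x => x i) e f) : ∀ (p φ : ι → Bool → ℝ) (c : Finset ι → ℝ),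
      (∀ i, IsP (p i)) → (∀ i, ∑ b, p i b * φ i b = 0) → (∀ i b, |φ i b| ≤ 2) →
      (Ex p (fun x => ind (f x) * ∑ S, c S * ∏ i ∈ S, φ i (x i))) ^ (2 * r + 2)
        ≤ (1 + 1 / d) ^ e * ∑ S, Wt r d ^ S.card * c S ^ (2 * r + 2) := by
  have hev : Even (2 * r + 2) := ⟨r + 1, by ring⟩
  have hd1 : (1 : ℝ) ≤ 1 + 1 / d := le_add_of_nonneg_right (by positivity)
  induction h with
  | const e b =>
    intro p φ c hp h0 h2
    have h1 : ∀ S : Finset ι, Ex p (fun x => ∏ i ∈ S, φ i (x i)) = if S = ∅ then 1 else 0 := by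
      intro S
      have := Ex_prod p (fun i y => if i ∈ S then φ i y else 1)
      simp only [prod_ite_mem, univ_inter] at this
      rw [this]
      split_ifs with hS
      · subst hS
        exact prod_eq_one fun i _ => by simpa only [notMem_empty, if_false, mul_one] using (hp i).2
      · obtain ⟨i, hi⟩ := nonempty_iff_ne_empty.2 hS
        exact prod_eq_zero (mem_univ i) (by simp only [hi, if_true]; exact h0 i)
    rw [Ex_mul, Ex_sum]
    simp only [Ex_mul, h1, mul_ite, mul_one, mul_zero, sum_ite_eq', mem_univ, if_true]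
    have h3 : (ind b * c ∅) ^ (2 * r + 2) ≤ c ∅ ^ (2 * r + 2) := by
      cases b
      · simpa using hev.pow_nonneg (c ∅)
      · simp
    have h4 : c ∅ ^ (2 * r + 2) ≤ ∑ S, Wt r d ^ S.card * c S ^ (2 * r + 2) := by
      have := single_le_sum (f := fun S : Finset ι => Wt r d ^ S.card * c S ^ (2 * r + 2))
        (fun S _ => mul_nonneg (pow_nonneg (Wt_nonneg r d) _) (hev.pow_nonneg _)) (mem_univ ∅)
      simpa using this
    exact h3.trans (h4.trans (le_mul_of_one_le_left ((hev.pow_nonneg _).trans h4)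
      (one_le_pow₀ hd1)))
  | node e i f0 f1 _ _ ih0 ih1 =>
    intro p φ c hp h0 h2
    set c' : Bool → Finset ι → ℝ := fun b S =>
      if i ∈ S then 0 else c S + φ i b * c (insert i S) with hc'
    set p' : Bool → ι → Bool → ℝ := fun b => Function.update p i fun y => if y = b then 1 else 0
    set φ' : ι → Bool → ℝ := Function.update φ i fun _ => 0
    set g : Bool → (ι → Bool) → Bool := fun b => if b then f1 else f0
    set A : Bool → ℝ := fun b => Ex (p' b) (fun x => ind (g b x) * ∑ S, c' b S * ∏ j ∈ S, φ' j (x j))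
    have hA : ∀ b, A b ^ (2 * r + 2)
        ≤ (1 + 1 / d) ^ e * ∑ S, Wt r d ^ S.card * c' b S ^ (2 * r + 2) := by
      intro b
      have a1 : ∀ j, IsP (p' b j) := fun j => by
        by_cases hj : j = i
        · subst hj
          simp only [p', Function.update_self]
          exact ⟨fun y => by dsimp only; split_ifs <;> norm_num, by simp⟩
        · simpa only [p', Function.update_of_ne hj] using hp j
      have a2 : ∀ j, ∑ y, p' b j y * φ' j y = 0 := fun j => by
        by_cases hj : j = i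
        · subst hj; simp [φ']
        · simpa only [p', φ', Function.update_of_ne hj] using h0 j
      have a3 : ∀ j y, |φ' j y| ≤ 2 := fun j y => by
        by_cases hj : j = i
        · subst hj; simp [φ']
        · simpa only [φ', Function.update_of_ne hj] using h2 j y
      cases b
      · exact ih0 _ _ _ a1 a2 a3
      · exact ih1 _ _ _ a1 a2 a3
    have hE : Ex p (fun x => ind (if x i then f1 x else f0 x) * ∑ S, c S * ∏ j ∈ S, φ j (x j))
        = ∑ b, p i b * A b := by
      rw [Ex_resample p i (hp i).2, Ex_sum]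
      refine sum_congr rfl fun b _ => ?_
      rw [Ex_mul]
      congr 1
      simp only [A, p']
      rw [Ex_update p i (hp i).2]
      congr 1
      funext x
      simp only [ite_mul, one_mul, zero_mul, sum_ite_eq', mem_univ, if_true, Function.update_self]
      congr 1
      · cases b <;> simp [g]
      · rw [sum_split i]
        refine sum_congr rfl fun S _ => ?_
        by_cases hS : i ∈ S
        · simp [hc', hS]
        · simp only [hc', hS, if_false, prod_insert hS, Function.update_self]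
          have : ∏ j ∈ S, φ' j (Function.update x i b j) = ∏ j ∈ S, φ j (Function.update x i b j) :=
            prod_congr rfl fun j hj => by
              rw [show φ' j = φ j from Function.update_of_ne (by rintro rfl; exact hS hj) _ _]
          rw [this]; ring
    rw [hE]
    have hJ := (hev.convexOn_pow (𝕜 := ℝ)).map_sum_le (t := univ) (w := p i) (p := A)
      (fun b _ => (hp i).1 b) (hp i).2 (fun _ _ => Set.mem_univ _)
    simp only [smul_eq_mul] at hJ
    refine hJ.trans ((sum_le_sum fun b _ =>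
      mul_le_mul_of_nonneg_left (hA b) ((hp i).1 b)).trans ?_)
    have hfin : ∑ b, p i b * ∑ S, Wt r d ^ S.card * c' b S ^ (2 * r + 2)
        ≤ (1 + 1 / d) * ∑ S, Wt r d ^ S.card * c S ^ (2 * r + 2) := by
      rw [sum_split i (fun S => Wt r d ^ S.card * c S ^ (2 * r + 2))]
      simp only [mul_sum]
      rw [sum_comm]
      refine sum_le_sum fun S _ => ?_
      by_cases hS : i ∈ S
      · simp [hc', hS]
      · simp only [hc', hS, if_false, card_insert_of_notMem hS]
        have t := one_step r d hd (c S) (c (insert i S)) (hp i) (h0 i) (h2 i)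
        have w0 : 0 ≤ Wt r d ^ S.card := pow_nonneg (Wt_nonneg r d) _
        have t2 := mul_le_mul_of_nonneg_left t w0
        have w1 : 0 ≤ Wt r d ^ (S.card + 1) * c (insert i S) ^ (2 * r + 2) :=
          mul_nonneg (pow_nonneg (Wt_nonneg r d) _) (hev.pow_nonneg _)
        have w2 := le_mul_of_one_le_left w1 hd1
        rw [mul_sum] at t2
        calc _ = ∑ b, Wt r d ^ S.card * (p i b * (c S + φ i b * c (insert i S)) ^ (2 * r + 2)) :=
              sum_congr rfl fun b _ => by ring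
          _ ≤ _ := t2
          _ ≤ _ := by rw [pow_succ (Wt r d) S.card] at *; nlinarith
    calc _ = (1 + 1 / d) ^ e * ∑ b, p i b * ∑ S, Wt r d ^ S.card * c' b S ^ (2 * r + 2) := by
          rw [mul_sum]; exact sum_congr rfl fun b _ => by ring
      _ ≤ (1 + 1 / d) ^ e * ((1 + 1 / d) * ∑ S, Wt r d ^ S.card * c S ^ (2 * r + 2)) := by gcongr
      _ = _ := by ring

end Crest.Agent.R350
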