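import Crest.Agent.R350.Gauss
import Crest.Agent.R350.Growth

set_option autoImplicit false
set_option linter.unusedSectionVars false
open Finset MvPolynomial

namespace Crest.Agent.R350

variable {V : Type} [Fintype V] [DecidableEq V] {k : ℕ} (U : V → V → ℝ) (τ : ℝ)

/-- the right factors -/
noncomputable def Xp (i : Fin (k + 1)) (v : V) : MvPolynomial (Fin k × V) ℝ :=
  Fin.lastCases 1 (fun j => C τ * X (j, v)) i

/-- the left factors -/
noncomputable def Yp (l : ℝ) (i : Fin (k + 1)) (v : V) : MvPolynomial (Fin k × V) ℝ :=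
  Fin.cases (C l) (fun j => C τ * ∑ u, C (U u v) * X (j, u)) i

/-- the means of the bits -/
noncomputable def Zp (l : ℝ) (i : Fin (k + 1) × V) : MvPolynomial (Fin k × V) ℝ :=
  Yp U τ l i.1 i.2 * Xp τ i.1 i.2

lemma pderiv_Xp (j : Fin k) (b : V) (i : Fin (k + 1)) (v : V) (h : (i, v) ≠ (j.castSucc, b)) :
    pderiv (j, b) (Xp τ i v) = 0 := by
  induction i using Fin.lastCases with
  | last => simp [Xp]
  | cast i =>
    simp only [Xp, Fin.lastCases_castSucc, pderiv_C_mul]
    rw [pderiv_X_of_ne, mul_zero]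
    intro e
    apply h
    rw [Prod.mk.injEq] at e
    rw [e.1, e.2]

lemma pderiv_Yp (l : ℝ) (j : Fin k) (b : V) (i : Fin (k + 1)) (v : V) :
    pderiv (j, b) (Yp U τ l i v) = if i = j.succ then C (τ * U b v) else 0 := by
  induction i using Fin.cases with
  | zero => simp [Yp, (Fin.succ_ne_zero j).symm]
  | succ i =>
    simp only [Yp, Fin.cases_succ, pderiv_C_mul, map_sum, Fin.succ_inj]
    split_ifs with h
    · subst h
      rw [sum_eq_single b]
      · simp
      · intro u _ hu
        rw [pderiv_X_of_ne (by simp [hu]), mul_zero]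
      · simp
    · rw [sum_eq_zero, mul_zero]
      intro u _
      rw [pderiv_X_of_ne (by simp [h]), mul_zero]

/-- the product density with the coordinates in `S` removed -/
noncomputable def Pd (s : Fin (k + 1) × V → ℝ) (l : ℝ) (S : Finset (Fin (k + 1) × V)) :
    MvPolynomial (Fin k × V) ℝ := ∏ i ∈ Sᶜ, (1 + C (s i) * Zp U τ l i)

lemma sum_block {M : Type*} [AddCommMonoid M] (S : Finset (Fin (k + 1) × V)) (j : Fin (k + 1))
    (hS : ∀ v, (j, v) ∉ S) (g : Fin (k + 1) × V → M) :
    ∑ i ∈ Sᶜ, (if i.1 = j then g i else 0) = ∑ v, g (j, v) := by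
  rw [← sum_filter]
  symm
  refine sum_nbij' (fun v => (j, v)) (fun i => i.2) ?_ ?_ ?_ ?_ ?_
  · intro v _; simp [hS v]
  · simp
  · simp
  · intro i hi
    have := (mem_filter.1 hi).2
    rw [← this]
  · simp

lemma stein_step (s : Fin (k + 1) × V → ℝ) (l : ℝ) (j : Fin k) (b : V)
    (S : Finset (Fin (k + 1) × V)) (h1 : (j.castSucc, b) ∈ S) (h2 : ∀ v, (j.succ, v) ∉ S) :
    GE (Xp τ j.castSucc b * Pd U τ s l S) = ∑ c, τ ^ 2 * U b c * s (j.succ, c) *
      GE (Xp τ j.succ c * Pd U τ s l (insert (j.succ, c) S)) := by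
  have e : Xp τ j.castSucc b = C τ * X (j, b) := by simp [Xp]
  rw [e, mul_assoc, GE_C_mul, stein, Pd, pderiv_prod]
  rw [sum_congr rfl (g := fun i => if i.1 = j.succ then
      C (τ * U b i.2 * s i) * (Xp τ i.1 i.2 * Pd U τ s l (insert i S)) else 0) ?_]
  · rw [sum_block S _ h2, map_sum, mul_sum]
    refine sum_congr rfl fun c _ => ?_
    rw [GE_C_mul]; ring
  · intro i hi
    have hne : (i.1, i.2) ≠ (j.castSucc, b) := by
      intro e
      rw [mem_compl] at hi
      exact hi (by rw [show i = (i.1, i.2) from rfl, e]; exact h1)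
    rw [map_add, pderiv_C_mul, Zp, pderiv_mul, pderiv_Xp τ j b _ _ hne, pderiv_Yp, Pd,
      compl_insert]
    split_ifs with h
    · simp only [map_mul, pderiv_one]; ring
    · simp

/-- the graph of the first coordinates of a tuple -/
def gr (j : ℕ) (a : Fin (k + 1) → V) : Finset (Fin (k + 1) × V) :=
  univ.filter fun i => i.1.val ≤ j ∧ i.2 = a i.1

/-- the product of matrix entries along a tuple -/
noncomputable def kap (j : ℕ) (a : Fin (k + 1) → V) : ℝ :=
  ∏ i : Fin k, if i.val < j then U (a i.castSucc) (a i.succ) else 1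

lemma gr_update (j : Fin k) (a : Fin (k + 1) → V) (c : V) :
    gr (j + 1) (Function.update a j.succ c) = insert (j.succ, c) (gr j a) := by
  ext ⟨i, v⟩
  simp only [gr, mem_filter, mem_univ, true_and, mem_insert, Prod.mk.injEq]
  by_cases h : i = j.succ
  · subst h; simp
  · rw [Function.update_of_ne h]
    have : i.val ≠ j.val + 1 := fun e => h (Fin.ext e)
    simp only [h, false_and, false_or]
    constructor <;> rintro ⟨h1, h2⟩ <;> exact ⟨by omega, h2⟩

lemma kap_update (j : Fin k) (a : Fin (k + 1) → V) (c : V) :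
    kap U (j + 1) (Function.update a j.succ c) = kap U j a * U (a j.castSucc) c := by
  simp only [kap]
  rw [Fintype.prod_eq_mul_prod_subtype_ne _ j, Fintype.prod_eq_mul_prod_subtype_ne _ j]
  simp only [Nat.lt_succ_self, if_true, lt_irrefl, if_false, one_mul, Function.update_self]
  rw [Function.update_of_ne (Fin.castSucc_lt_succ).ne, mul_comm]
  congr 1
  refine prod_congr rfl fun i _ => ?_
  have hi : i.1.val ≠ j.val := fun e => i.2 (Fin.ext e)
  by_cases h : i.1.val < j.val
  · rw [if_pos h, if_pos (by omega), Function.update_of_ne, Function.update_of_ne]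
    · intro e; have := congrArg Fin.val e; simp at this; omega
    · intro e; have := congrArg Fin.val e; simp at this; omega
  · rw [if_neg h, if_neg (by omega)]

lemma sum_sum_update {ι : Type*} [Fintype ι] [DecidableEq ι] (j : ι) (H : (ι → V) → ℝ) :
    ∑ a : ι → V, ∑ c, H (Function.update a j c) = Fintype.card V * ∑ a, H a := by
  rw [← sum_product', univ_product_univ]
  let e : (ι → V) × V ≃ (ι → V) × V :=
    { toFun := fun q => (Function.update q.1 j q.2, q.1 j)
      invFun := fun q => (Function.update q.1 j q.2, q.1 j)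
      left_inv := fun q => by simp
      right_inv := fun q => by simp }
  rw [← e.sum_comp]
  simp only [e, Equiv.coe_fn_mk, Function.update_idem, Function.update_eq_self]
  rw [Fintype.sum_prod_type]
  simp [mul_sum]

lemma stein_chain [Nonempty V] (s : Fin (k + 1) × V → ℝ) (l : ℝ) :
    ∑ b, s (0, b) * GE (Xp τ 0 b * Pd U τ s l {(0, b)})
      = τ ^ (2 * k) * ∑ a, kap U k a * ((∏ i ∈ gr k a, s i) * GE (Pd U τ s l (gr k a))) := by
  set N : ℝ := (Fintype.card V : ℝ) with hN
  have hN0 : N ≠ 0 := by rw [hN]; exact_mod_cast Fintype.card_ne_zero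
  set H : Fin (k + 1) → (Fin (k + 1) → V) → ℝ := fun j a =>
    kap U j a * ((∏ i ∈ gr j a, s i) * GE (Xp τ j (a j) * Pd U τ s l (gr j a))) with hH
  have step : ∀ j : Fin k, ∑ a, H j.castSucc a = τ ^ 2 * N * ∑ a, H j.succ a := by
    intro j
    rw [mul_assoc, hN, ← sum_sum_update j.succ, mul_sum]
    refine sum_congr rfl fun a _ => ?_
    have h2 : ∀ v, (j.succ, v) ∉ gr j a := by simp [gr]
    simp only [hH, Fin.val_castSucc, Fin.val_succ, gr_update, kap_update, Function.update_self]
    rw [stein_step U τ s l j _ _ (by simp [gr]) h2, mul_sum, mul_sum, mul_sum]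
    refine sum_congr rfl fun c _ => ?_
    rw [prod_insert (h2 c)]; ring
  have iter : ∀ j : Fin (k + 1), ∑ a, H 0 a = (τ ^ 2 * N) ^ j.val * ∑ a, H j a := by
    intro j
    induction j using Fin.induction with
    | zero => simp
    | succ j ih => rw [ih, step]; simp [pow_succ, mul_assoc]
  have h0 := sum_sum_update (0 : Fin (k + 1)) (H 0)
  have h1 : ∀ a c, H 0 (Function.update a 0 c) = s (0, c) * GE (Xp τ 0 c * Pd U τ s l {(0, c)}) := by
    intro a c
    have : gr 0 (Function.update a 0 c) = {((0 : Fin (k + 1)), c)} := by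
      ext ⟨i, v⟩
      simp only [gr, mem_filter, mem_univ, true_and, mem_singleton, Prod.mk.injEq, Nat.le_zero,
        Fin.val_eq_zero_iff]
      constructor <;> rintro ⟨rfl, h⟩ <;> simpa using h
    simp [hH, this, kap]
  simp only [h1, sum_const, card_univ, Fintype.card_fun, Fintype.card_fin, nsmul_eq_mul] at h0
  rw [iter (Fin.last k), ← hN] at h0
  push_cast at h0
  rw [← hN] at h0
  have h3 : ∑ a, H (Fin.last k) a
      = ∑ a, kap U k a * ((∏ i ∈ gr k a, s i) * GE (Pd U τ s l (gr k a))) := by
    simp [hH, Xp]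
  rw [← h3]
  apply mul_left_cancel₀ (pow_ne_zero (k + 1) hN0)
  rw [h0, mul_pow, ← pow_mul]; ring

lemma hasDerivAt_GE {σ : Type*} [Fintype σ] [DecidableEq σ] (P : Polynomial (MvPolynomial σ ℝ))
    (l : ℝ) : HasDerivAt (fun l => GE (P.eval (C l))) (GE (P.derivative.eval (C l))) l := by
  induction P using Polynomial.induction_on' with
  | add P Q hP hQ => simpa only [map_add, Polynomial.eval_add] using hP.fun_add hQ
  | monomial n a =>
    simp only [Polynomial.derivative_monomial, Polynomial.eval_monomial]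
    have e1 : ∀ l : ℝ, GE (a * C l ^ n) = l ^ n * GE a := fun l => by
      rw [← C_pow, mul_comm, GE_C_mul]
    have e2 : GE (a * (n : MvPolynomial σ ℝ) * C l ^ (n - 1)) = (n * l ^ (n - 1)) * GE a := by
      rw [← GE_C_mul]; congr 1; simp; ring
    simp only [e1, e2]
    exact (hasDerivAt_pow n l).mul_const _

lemma hasDerivAt_Pd [Nonempty V] (s : Fin (k + 1) × V → ℝ) (l : ℝ) :
    HasDerivAt (fun l => GE (Pd U τ s l ∅))
      (τ ^ (2 * k) * ∑ a, kap U k a * ((∏ i ∈ gr k a, s i) * GE (Pd U τ s l (gr k a)))) l := by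
  set L : Fin (k + 1) × V → Polynomial (MvPolynomial (Fin k × V) ℝ) := fun i =>
    1 + Polynomial.C (C (s i)) * (if i.1 = 0 then Polynomial.X * Polynomial.C (Xp τ 0 i.2)
      else Polynomial.C (Zp U τ 0 i)) with hL
  have e1 : ∀ l i, (L i).eval (C l) = 1 + C (s i) * Zp U τ l i := by
    rintro l ⟨i, v⟩
    induction i using Fin.cases with
    | zero =>
      simp only [hL, if_true, Polynomial.eval_add, Polynomial.eval_one, Polynomial.eval_mul,
        Polynomial.eval_C, Polynomial.eval_X]
      rfl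
    | succ i =>
      simp only [hL, Fin.succ_ne_zero, if_false, Polynomial.eval_add, Polynomial.eval_one,
        Polynomial.eval_mul, Polynomial.eval_C]
      rfl
  have e2 : ∀ i, (L i).derivative = if i.1 = 0 then Polynomial.C (C (s i) * Xp τ 0 i.2) else 0 := by
    intro i
    simp only [hL]
    split_ifs <;> simp
  have h := hasDerivAt_GE (∏ i ∈ (∅ : Finset (Fin (k + 1) × V))ᶜ, L i) l
  simp only [Polynomial.eval_prod, e1] at h
  refine HasDerivAt.congr_deriv h (Eq.symm ?_)
  rw [← stein_chain, Polynomial.derivative_prod_finset, Polynomial.eval_finsetSum]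
  rw [sum_congr rfl (g := fun i => if i.1 = 0 then
    C (s i) * (Xp τ 0 i.2 * Pd U τ s l {i}) else 0) ?_]
  · rw [sum_block ∅ 0 (by simp), map_sum]
    simp only [GE_C_mul]
  · intro i _
    rw [Polynomial.eval_mul, Polynomial.eval_prod, e2]
    simp only [e1]
    split_ifs
    · rw [Pd, ← insert_empty_eq, compl_insert, Polynomial.eval_C]; ring
    · simp

end Crest.Agent.R350
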