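import Crest.Agent.R350.Hid1

set_option autoImplicit false
set_option linter.unusedSectionVars false
open Finset MvPolynomial MeasureTheory

namespace Crest.Agent.R350

variable {V : Type} [Fintype V] [DecidableEq V] {k : ℕ} (U : V → V → ℝ) (τ : ℝ)

/-- the Gaussian factors -/
noncomputable def uv (g : Fin k × V → ℝ) (w : Bool × Fin k × V) : ℝ :=
  if w.1 then τ * ∑ u, U u w.2.2 * g (w.2.1, u) else τ * g w.2

/-- all factors are small -/
def good (g : Fin k × V → ℝ) : Prop := ∀ w, |uv U τ g w| ≤ 1 / 2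

/-- the majorant of the error terms -/
noncomputable def Bad (g : Fin k × V → ℝ) : ℝ :=
  ∏ w, (∑ e ∈ ({0, 1, -1} : Finset ℝ),
    Real.exp ((4 * τ ^ 2)⁻¹ * (e * uv U τ g w - e ^ 2 / 2))) - 1

/-- the means of the bits, as numbers -/
noncomputable def zv (l : ℝ) (g : Fin k × V → ℝ) (i : Fin (k + 1) × V) : ℝ := eval g (Zp U τ l i)

lemma sum3 (F : ℝ → ℝ) : ∑ e ∈ ({0, 1, -1} : Finset ℝ), F e = F 0 + F 1 + F (-1) := by
  rw [sum_insert (by norm_num), sum_insert (by norm_num), sum_singleton, add_assoc]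

lemma rho_ge {θ : ℝ} (hθ : 2 ≤ θ) (u : ℝ) :
    (if |u| ≤ 1 / 2 then 1 else 2) * max 1 |u|
      ≤ ∑ e ∈ ({0, 1, -1} : Finset ℝ), Real.exp (θ * (e * u - e ^ 2 / 2)) := by
  rw [sum3]
  have h1 := Real.exp_pos (θ * (1 * u - 1 ^ 2 / 2))
  have h2 := Real.exp_pos (θ * (-1 * u - (-1) ^ 2 / 2))
  have h3 := Real.add_one_le_exp (θ * (1 * u - 1 ^ 2 / 2))
  have h4 := Real.add_one_le_exp (θ * (-1 * u - (-1) ^ 2 / 2))
  simp only [zero_mul, ne_eq, OfNat.ofNat_ne_zero, not_false_eq_true, zero_pow, zero_div, sub_zero,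
    mul_zero, Real.exp_zero]
  split_ifs with h
  · rw [max_eq_left (by linarith)]; linarith
  · push Not at h
    rcases abs_cases u with ⟨hu, -⟩ | ⟨hu, -⟩ <;> rw [hu] at h ⊢
    · have : 2 * (u - 1 / 2) ≤ θ * (1 * u - 1 ^ 2 / 2) := by nlinarith
      rcases max_choice 1 u with e | e <;> rw [e] <;> linarith
    · have : 2 * (-u - 1 / 2) ≤ θ * (-1 * u - (-1) ^ 2 / 2) := by nlinarith
      rcases max_choice 1 (-u) with e | e <;> rw [e] <;> linarith

variable {τ}

lemma theta_ge (h0 : 0 < τ) (h1 : τ ^ 2 ≤ 1 / 8) : 2 ≤ (4 * τ ^ 2)⁻¹ := by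
  rw [le_inv_comm₀ (by norm_num) (by positivity)]; linarith

lemma one_le_prod_max {ι : Type*} (s : Finset ι) (a : ι → ℝ) : 1 ≤ ∏ i ∈ s, max 1 (a i) :=
  one_le_prod fun _ _ => le_max_left _ _

lemma Bad_ge (h0 : 0 < τ) (h1 : τ ^ 2 ≤ 1 / 8) (g : Fin k × V → ℝ) :
    (∏ w, if |uv U τ g w| ≤ 1 / 2 then 1 else 2) * ∏ w, max 1 |uv U τ g w| ≤ Bad U τ g + 1 := by
  rw [Bad, sub_add_cancel, ← prod_mul_distrib]
  exact prod_le_prod (fun w _ => by positivity) fun w _ => rho_ge (theta_ge h0 h1) _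

lemma Bad_nonneg (h0 : 0 < τ) (h1 : τ ^ 2 ≤ 1 / 8) (g : Fin k × V → ℝ) : 0 ≤ Bad U τ g := by
  have h := Bad_ge U h0 h1 g
  have h2 : (1 : ℝ) ≤ ∏ w, if |uv U τ g w| ≤ 1 / 2 then 1 else 2 :=
    one_le_prod fun w _ => by split_ifs <;> norm_num
  have h3 := one_le_prod_max univ fun w => |uv U τ g w|
  nlinarith

lemma eval_Xp (g : Fin k × V → ℝ) (j : Fin k) (v : V) :
    eval g (Xp τ j.castSucc v) = uv U τ g (false, j, v) := by simp [Xp, uv]

lemma eval_Yp (l : ℝ) (g : Fin k × V → ℝ) (j : Fin k) (v : V) :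
    eval g (Yp U τ l j.succ v) = uv U τ g (true, j, v) := by simp [Yp, uv]

lemma prod_max_le (h0 : 0 < τ) (h1 : τ ^ 2 ≤ 1 / 8) {l : ℝ} (hl : |l| ≤ 1) {g : Fin k × V → ℝ}
    (hg : ¬ good U τ g) : ∏ i, max 1 |zv U τ l g i| ≤ Bad U τ g := by
  have h := Bad_ge U h0 h1 g
  have h2 : (2 : ℝ) ≤ ∏ w, if |uv U τ g w| ≤ 1 / 2 then 1 else 2 := by
    simp only [good, not_forall] at hg
    obtain ⟨w, hw⟩ := hg
    rw [Fintype.prod_eq_mul_prod_subtype_ne _ w, if_neg hw]
    exact le_mul_of_one_le_right (by norm_num) (one_le_prod fun w _ => by split_ifs <;> norm_num)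
  have h3 := one_le_prod_max univ fun w => |uv U τ g w|
  have h4 : ∏ i, max 1 |zv U τ l g i| ≤ ∏ w, max 1 |uv U τ g w| := by
    have e : ∏ w, max 1 |uv U τ g w| = ∏ i : Fin (k + 1) × V,
        (max 1 |eval g (Yp U τ l i.1 i.2)| * max 1 |eval g (Xp τ i.1 i.2)|) := by
      rw [prod_mul_distrib, Fintype.prod_prod_type, Fintype.prod_bool]
      congr 1
      · rw [Fintype.prod_prod_type, Fintype.prod_prod_type, Fin.prod_univ_succ]
        simp only [eval_Yp]
        simp [Yp, max_eq_left hl]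
      · rw [Fintype.prod_prod_type, Fintype.prod_prod_type, Fin.prod_univ_castSucc]
        simp only [eval_Xp U]
        simp [Xp]
    rw [e]
    refine prod_le_prod (fun _ _ => by positivity) fun i _ => ?_
    rw [zv, Zp, map_mul, abs_mul]
    exact max_le (one_le_mul_of_one_le_of_one_le (le_max_left _ _) (le_max_left _ _))
      (mul_le_mul (le_max_right _ _) (le_max_right _ _) (abs_nonneg _) (by positivity))
  nlinarith

lemma zv_small (hk : 1 ≤ k) {l : ℝ} (hl : |l| ≤ 1) {g : Fin k × V → ℝ}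
    (hg : good U τ g) (i : Fin (k + 1) × V) : |zv U τ l g i| ≤ 1 / 2 := by
  obtain ⟨i, v⟩ := i
  have hX : ∀ i : Fin (k + 1), |eval g (Xp τ i v)| ≤ 1 := fun i => by
    induction i using Fin.lastCases with
    | last => simp [Xp]
    | cast j => rw [eval_Xp U]; linarith [hg (false, j, v)]
  rw [zv, Zp, map_mul, abs_mul]
  induction i using Fin.cases with
  | zero =>
    have : (0 : Fin (k + 1)) = Fin.castSucc ⟨0, hk⟩ := rfl
    have h1 := hg (false, ⟨0, hk⟩, v)
    rw [← eval_Xp, ← this] at h1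
    have h2 : |eval g (Yp U τ l 0 v)| ≤ 1 := by simpa [Yp] using hl
    dsimp only
    nlinarith [abs_nonneg (eval g (Yp U τ l 0 v)), abs_nonneg (eval g (Xp τ (0 : Fin (k + 1)) v))]
  | succ j =>
    dsimp only
    rw [eval_Yp]
    nlinarith [hg (true, j, v), hX j.succ, abs_nonneg (uv U τ g (true, j, v)),
      abs_nonneg (eval g (Xp τ j.succ v))]

lemma Bad_expand (g : Fin k × V → ℝ) : Bad U τ g =
    ∑ η ∈ Fintype.piFinset (fun _ : Bool × Fin k × V => ({0, 1, -1} : Finset ℝ)),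
      Real.exp (-((4 * τ ^ 2)⁻¹ * ∑ w, η w ^ 2 / 2)) *
        Real.exp (∑ i : Fin k × V, ((4 * τ ^ 2)⁻¹ * τ *
          (η (false, i) + ∑ v, U i.2 v * η (true, i.1, v))) * g i) - 1 := by
  rw [Bad, Finset.prod_univ_sum]
  congr 1
  refine sum_congr rfl fun η _ => ?_
  rw [← Real.exp_sum, ← Real.exp_add]
  congr 1
  simp only [mul_sub, sum_sub_distrib, ← mul_sum]
  rw [sub_eq_neg_add]
  congr 1
  simp only [mul_assoc, ← mul_sum]
  congr 1
  rw [Fintype.sum_prod_type, Fintype.sum_bool]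
  simp only [uv, if_true, Bool.false_eq_true, if_false, add_mul, sum_add_distrib, mul_add, mul_sum]
  rw [add_comm]
  congr 1
  · exact sum_congr rfl fun i _ => by ring
  · simp only [Fintype.sum_prod_type, sum_mul, mul_sum]
    refine sum_congr rfl fun j _ => ?_
    rw [sum_comm]
    exact sum_congr rfl fun u _ => sum_congr rfl fun v _ => by ring

lemma integrable_Bad : Integrable (Bad (k := k) U τ) (gm (Fin k × V)) := by
  rw [show Bad (k := k) U τ = _ from funext (Bad_expand U)]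
  exact (integrable_finsetSum _ fun η _ => (integrable_exp_lin _).const_mul _).sub
    (integrable_const _)

lemma integral_Bad (h0 : 0 < τ) (hU : ∀ y : V → ℝ, ∑ u, (∑ v, U u v * y v) ^ 2 = ∑ v, y v ^ 2) :
    ∫ g, Bad (k := k) U τ g ∂gm (Fin k × V)
      ≤ (1 + 2 * Real.exp (-(16 * τ ^ 2)⁻¹)) ^ (2 * k * Fintype.card V) - 1 := by
  simp only [Bad_expand]
  rw [integral_sub (integrable_finsetSum _ fun η _ => (integrable_exp_lin _).const_mul _)
    (integrable_const _), integral_finsetSum _ fun η _ => (integrable_exp_lin _).const_mul _]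
  simp only [integral_const_mul, integral_exp_lin, integral_const, probReal_univ, smul_eq_mul,
    mul_one, sub_le_sub_iff_right]
  have e : (1 + 2 * Real.exp (-(16 * τ ^ 2)⁻¹)) ^ (2 * k * Fintype.card V)
      = ∏ _w : Bool × Fin k × V, ∑ e ∈ ({0, 1, -1} : Finset ℝ),
        Real.exp (-(16 * τ ^ 2)⁻¹ * e ^ 2) := by
    rw [sum3, prod_const, card_univ]
    simp only [Fintype.card_prod, Fintype.card_bool, Fintype.card_fin, mul_assoc]
    congr 1
    simp; ring
  rw [e, Finset.prod_univ_sum]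
  refine sum_le_sum fun η _ => ?_
  rw [← Real.exp_add, ← Real.exp_sum, Real.exp_le_exp, ← mul_sum]
  have h1 : ∑ i : Fin k × V, ((4 * τ ^ 2)⁻¹ * τ *
      (η (false, i) + ∑ v, U i.2 v * η (true, i.1, v))) ^ 2 / 2
      ≤ (16 * τ ^ 2)⁻¹ * ∑ w, η w ^ 2 := by
    have h2 : ∑ w, η w ^ 2 = ∑ i : Fin k × V,
        (η (false, i) ^ 2 + (∑ v, U i.2 v * η (true, i.1, v)) ^ 2) := by
      rw [Fintype.sum_prod_type, Fintype.sum_bool, sum_add_distrib, add_comm]
      congr 1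
      simp only [Fintype.sum_prod_type, hU]
    rw [h2, mul_sum]
    refine sum_le_sum fun i _ => ?_
    have h3 : ((4 * τ ^ 2)⁻¹ * τ) ^ 2 = (16 * τ ^ 2)⁻¹ := by field_simp; norm_num
    rw [mul_pow, h3, mul_div_assoc]
    gcongr
    nlinarith [sq_nonneg (η (false, i) - ∑ v, U i.2 v * η (true, i.1, v))]
  have h4 : (4 * τ ^ 2)⁻¹ * ∑ w, η w ^ 2 / 2 = 2 * ((16 * τ ^ 2)⁻¹ * ∑ w, η w ^ 2) := by
    rw [← sum_div]; field_simp; ring
  rw [h4]
  linarith

end Crest.Agent.R350
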