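import Crest.Agent.R350.Hid2

set_option autoImplicit false
set_option linter.unusedSectionVars false
open Finset MvPolynomial MeasureTheory

namespace Crest.Agent.R350

section pd
variable {ι : Type*} [Fintype ι] [DecidableEq ι]

/-- the weights computing a partial derivative of the multilinear extension -/
noncomputable def pd (S : Finset ι) (z : ι → ℝ) (i : ι) (b : Bool) : ℝ :=
  if i ∈ S then sg b / 2 else (1 + sg b * z i) / 2

lemma pd_sum (z : ι → ℝ) (i : ι) : ∑ b, pd ∅ z i b = 1 := by simp [pd]; ring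

lemma pd_isP {z : ι → ℝ} (hz : ∀ i, |z i| ≤ 1 / 2) (i : ι) : IsP (pd ∅ z i) := by
  refine ⟨fun b => ?_, pd_sum z i⟩
  have := abs_le.1 (hz i)
  cases b <;> simp [pd] <;> linarith

lemma abs_Ex_pd_le (S : Finset ι) (z : ι → ℝ) {f : (ι → Bool) → ℝ} (hf : ∀ x, |f x| ≤ 1) :
    |Ex (pd S z) f| ≤ ∏ i, max 1 |z i| := by
  refine (abs_sum_le_sum_abs _ _).trans ?_
  have h1 := Ex_prod (fun i b => |pd S z i b|) (fun _ _ => 1)
  simp only [Ex, prod_const_one, mul_one] at h1
  calc _ ≤ ∑ x : ι → Bool, ∏ i, |pd S z i (x i)| := sum_le_sum fun x _ => by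
        rw [abs_mul, abs_prod]
        exact mul_le_of_le_one_right (prod_nonneg fun _ _ => abs_nonneg _) (hf x)
    _ = _ := h1
    _ ≤ _ := prod_le_prod (fun _ _ => sum_nonneg fun _ _ => abs_nonneg _) fun i _ => by
        simp only [pd, Fintype.sum_bool, sg_true, sg_false]
        split_ifs
        · refine le_max_of_le_left ?_
          norm_num [abs_div]
        · have h2 := le_max_left 1 |z i|
          have h3 := le_max_right 1 |z i|
          rcases abs_cases (z i) with h | h <;>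
          rcases abs_cases ((1 + -1 * z i) / 2) with h4 | h4 <;>
          rcases abs_cases ((1 + 1 * z i) / 2) with h5 | h5 <;> linarith [h.1, h.2, h4.1, h5.1]

lemma prod_pd (S : Finset ι) (z : ι → ℝ) (x : ι → Bool) : ∏ i, pd S z i (x i)
    = (2 ^ Fintype.card ι)⁻¹ * (∏ i ∈ S, sg (x i)) * ∏ i ∈ Sᶜ, (1 + sg (x i) * z i) := by
  have : ∀ i, pd S z i (x i) = 2⁻¹ * if i ∈ S then sg (x i) else (1 + sg (x i) * z i) := fun i => by
    simp only [pd]; split_ifs <;> ring
  simp only [this, prod_mul_distrib, prod_const, card_univ, inv_pow, mul_assoc]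
  rw [← prod_mul_prod_compl S]
  congr 2
  · exact prod_congr rfl fun i hi => if_pos hi
  · exact prod_congr rfl fun i hi => if_neg (mem_compl.1 hi)

lemma Ex_pd_eq (S : Finset ι) {z : ι → ℝ} (hz : ∀ i, |z i| ≤ 1 / 2) (f : (ι → Bool) → ℝ) :
    Ex (pd S z) f
      = Ex (pd ∅ z) (fun x => f x * ∏ i ∈ S, sg (x i) / (1 + sg (x i) * z i)) := by
  refine sum_congr rfl fun x _ => ?_
  beta_reduce
  rw [prod_pd, prod_pd, compl_empty, ← prod_mul_prod_compl S, prod_div_distrib]
  have : ∏ i ∈ S, (1 + sg (x i) * z i) ≠ 0 := prod_ne_zero_iff.2 fun i _ => by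
    have := abs_le.1 (hz i)
    cases x i <;> simp <;> linarith
  field_simp
  simp

end pd

variable {V : Type} [Fintype V] [DecidableEq V] {k : ℕ}

lemma gr_inj {a a' : Fin (k + 1) → V} (h : gr k a = gr k a') : a = a' := by
  funext i
  have : (i, a i) ∈ gr k a := by simp [gr, Nat.lt_succ_iff.1 i.2]
  rw [h] at this
  exact (mem_filter.1 this).2.2

lemma card_gr (a : Fin (k + 1) → V) : (gr k a).card = k + 1 := by
  have : gr k a = univ.image fun i => (i, a i) := by
    ext ⟨i, v⟩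
    simp [gr, Nat.lt_succ_iff.1 i.2, eq_comm]
  rw [this, card_image_of_injective _ fun i j h => (Prod.mk.inj h).1]
  simp

lemma level_bound {z : Fin (k + 1) × V → ℝ} (hz : ∀ i, |z i| ≤ 1 / 2) (r d : ℕ) (hd : 1 ≤ d)
    {f : (Fin (k + 1) × V → Bool) → Bool} (hf : Dep (fun i x => x i) d f)
    (κ : (Fin (k + 1) → V) → ℝ) {B Λ : ℝ} (hB : 0 ≤ B) (hκ : ∀ a, |κ a| ≤ B) (hΛ0 : 0 ≤ Λ)
    (hΛ : 3 * Wt r d ^ (k + 1) * (Fintype.card V : ℝ) ^ (k + 1) ≤ Λ ^ (2 * r + 2)) :
    |∑ a, κ a * Ex (pd (gr k a) z) (fun x => ind (f x))| ≤ B * Λ := by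
  have hev : Even (2 * r + 2) := ⟨r + 1, by ring⟩
  set c : Finset (Fin (k + 1) × V) → ℝ := fun S => ∑ a, if gr k a = S then κ a else 0 with hc
  have h := growth r d hd hf (pd ∅ z) (fun i b => sg b / (1 + sg b * z i)) c (pd_isP hz)
    (fun i => by
      have := abs_le.1 (hz i)
      have h1 : 1 + z i ≠ 0 := by linarith
      have h2 : 1 + -z i ≠ 0 := by linarith
      simp [pd]; field_simp; ring)
    (fun i b => by
      have := abs_le.1 (hz i)
      rw [abs_div, abs_sg, div_le_iff₀]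
      · cases b <;> simp <;> rw [abs_of_pos] <;> linarith
      · cases b <;> simp <;> linarith)
  have e : Ex (pd ∅ z) (fun x => ind (f x) * ∑ S, c S * ∏ i ∈ S, sg (x i) / (1 + sg (x i) * z i))
      = ∑ a, κ a * Ex (pd (gr k a) z) (fun x => ind (f x)) := by
    rw [sum_congr rfl fun a _ => by rw [Ex_pd_eq (gr k a) hz, ← Ex_mul], ← Ex_sum]
    congr 1
    funext x
    simp only [hc, sum_mul, mul_sum]
    rw [sum_comm]
    refine sum_congr rfl fun a _ => ?_
    simp only [ite_mul, zero_mul, mul_ite, mul_zero, sum_ite_eq, mem_univ, if_true]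
    ring
  rw [e] at h
  have h1 : (1 + 1 / d : ℝ) ^ d ≤ 3 := by
    have h2 : (1 + 1 / d : ℝ) ≤ Real.exp (1 / d) := by linarith [Real.add_one_le_exp (1 / d : ℝ)]
    have h3 := pow_le_pow_left₀ (by positivity) h2 d
    rw [← Real.exp_nat_mul, mul_one_div_cancel (by positivity)] at h3
    linarith [Real.exp_one_lt_d9]
  have h2 : ∑ S, Wt r d ^ S.card * c S ^ (2 * r + 2)
      ≤ (Fintype.card V : ℝ) ^ (k + 1) * (Wt r d ^ (k + 1) * B ^ (2 * r + 2)) := by
    have hW : 0 ≤ Wt r d ^ (k + 1) * B ^ (2 * r + 2) :=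
      mul_nonneg (pow_nonneg (Wt_nonneg r d) _) (hev.pow_nonneg _)
    calc _ ≤ ∑ S, ∑ a : Fin (k + 1) → V,
          if gr k a = S then Wt r d ^ (k + 1) * B ^ (2 * r + 2) else 0 := by
          refine sum_le_sum fun S _ => ?_
          by_cases hS : ∃ a, gr k a = S
          · obtain ⟨a, rfl⟩ := hS
            have e1 : ∀ y : (Fin (k + 1) → V) → ℝ,
                ∑ a', (if gr k a' = gr k a then y a' else 0) = y a := fun y => by
              rw [sum_eq_single a]
              · simp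
              · intro b _ hb; exact if_neg fun e => hb (gr_inj e)
              · simp
            simp only [hc, e1, card_gr]
            rw [← hev.pow_abs (κ a)]
            gcongr
            · exact pow_nonneg (Wt_nonneg r d) _
            · exact hκ a
          · push Not at hS
            simp [hc, hS]
      _ = _ := by
          rw [sum_comm]
          simp
  refine le_of_pow_le_pow_left₀ (n := 2 * r + 2) (by omega) (mul_nonneg hB hΛ0) ?_
  rw [hev.pow_abs]
  have h3 : 0 ≤ ∑ S, Wt r d ^ S.card * c S ^ (2 * r + 2) :=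
    sum_nonneg fun S _ => mul_nonneg (pow_nonneg (Wt_nonneg r d) _) (hev.pow_nonneg _)
  calc _ ≤ _ := h
    _ ≤ 3 * ((Fintype.card V : ℝ) ^ (k + 1) * (Wt r d ^ (k + 1) * B ^ (2 * r + 2))) := by gcongr
    _ = B ^ (2 * r + 2) * (3 * Wt r d ^ (k + 1) * (Fintype.card V : ℝ) ^ (k + 1)) := by ring
    _ ≤ B ^ (2 * r + 2) * Λ ^ (2 * r + 2) := by gcongr
    _ = _ := (mul_pow _ _ _).symm

variable (U : V → V → ℝ) (τ : ℝ)

/-- the polynomial computing a partial derivative of the multilinear extension -/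
noncomputable def PD (f : (Fin (k + 1) × V → Bool) → ℝ) (S : Finset (Fin (k + 1) × V)) (l : ℝ) :
    MvPolynomial (Fin k × V) ℝ :=
  ∑ x, C (f x * (2 ^ Fintype.card (Fin (k + 1) × V))⁻¹ * ∏ i ∈ S, sg (x i))
    * Pd U τ (fun i => sg (x i)) l S

lemma eval_PD (f : (Fin (k + 1) × V → Bool) → ℝ) (S : Finset (Fin (k + 1) × V)) (l : ℝ)
    (g : Fin k × V → ℝ) : eval g (PD U τ f S l) = Ex (pd S (zv U τ l g)) f := by
  simp only [PD, Ex, prod_pd, map_sum, map_mul, eval_C, Pd, map_prod, map_add, map_one, zv]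
  exact sum_congr rfl fun x _ => by ring

lemma hasDerivAt_PD [Nonempty V] (f : (Fin (k + 1) × V → Bool) → ℝ) (l : ℝ) :
    HasDerivAt (fun l => GE (PD U τ f ∅ l))
      (τ ^ (2 * k) * ∑ a, kap U k a * GE (PD U τ f (gr k a) l)) l := by
  simp only [PD, map_sum, GE_C_mul]
  refine (HasDerivAt.fun_sum fun x _ =>
    (hasDerivAt_Pd U τ (fun i => sg (x i)) l).const_mul _).congr_deriv ?_
  simp only [mul_sum]
  rw [sum_comm]
  exact sum_congr rfl fun a _ => sum_congr rfl fun x _ => by simp only [prod_empty]; ring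

variable {U τ}

lemma deriv_bound (hk : 1 ≤ k) (h0 : 0 < τ) (h1 : τ ^ 2 ≤ 1 / 8) {μ ε : ℝ}
    (hμ : ∀ u v, |U u v| ≤ μ) (hε : ∫ g, Bad (k := k) U τ g ∂gm (Fin k × V) ≤ ε)
    (r d : ℕ) (hd : 1 ≤ d) {f : (Fin (k + 1) × V → Bool) → Bool} (hf : Dep (fun i x => x i) d f)
    {Λ : ℝ} (hΛ0 : 0 ≤ Λ) [Nonempty V]
    (hΛ : 3 * Wt r d ^ (k + 1) * (Fintype.card V : ℝ) ^ (k + 1) ≤ Λ ^ (2 * r + 2))
    {l : ℝ} (hl : |l| ≤ 1) :
    |∑ a, kap U k a * GE (PD U τ (fun x => ind (f x)) (gr k a) l)|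
      ≤ μ ^ k * (Λ + (Fintype.card V : ℝ) ^ (k + 1) * ε) := by
  have hμ0 : 0 ≤ μ := (abs_nonneg _).trans (hμ (Classical.arbitrary V) (Classical.arbitrary V))
  have hκ : ∀ a : Fin (k + 1) → V, |kap U k a| ≤ μ ^ k := fun a => by
    rw [kap, abs_prod]
    refine (prod_le_prod (fun _ _ => abs_nonneg _) (g := fun _ => μ) fun i _ => ?_).trans ?_
    · rw [if_pos i.2]; exact hμ _ _
    · simp
  have e : ∑ a, kap U k a * GE (PD U τ (fun x => ind (f x)) (gr k a) l)
      = ∫ g, ∑ a, kap U k a * Ex (pd (gr k a) (zv U τ l g)) (fun x => ind (f x))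
        ∂gm (Fin k × V) := by
    rw [sum_congr rfl fun a _ => (GE_C_mul _ _).symm, ← map_sum, GE_apply]
    simp only [map_sum, map_mul, eval_C, eval_PD]
  rw [e]
  have hI : Integrable (fun g => μ ^ k * (Λ + (Fintype.card V : ℝ) ^ (k + 1) * Bad (k := k) U τ g))
      (gm (Fin k × V)) :=
    ((integrable_const _).add ((integrable_Bad U).const_mul _)).const_mul _
  rw [← Real.norm_eq_abs]
  refine (norm_integral_le_of_norm_le hI (ae_of_all _ fun g => ?_)).trans ?_
  · rw [Real.norm_eq_abs]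
    have hb := Bad_nonneg U h0 h1 g
    by_cases hg : good U τ g
    · refine (level_bound (zv_small U hk hl hg) r d hd hf _ (by positivity) hκ hΛ0 hΛ).trans ?_
      gcongr
      exact le_add_of_nonneg_right (by positivity)
    · refine (abs_sum_le_sum_abs _ _).trans ((sum_le_sum
        (g := fun _ => μ ^ k * Bad U τ g) fun a _ => ?_).trans ?_)
      · rw [abs_mul]
        refine mul_le_mul (hκ a) ((abs_Ex_pd_le _ _ fun x => ?_).trans (prod_max_le U h0 h1 hl hg))
          (abs_nonneg _) (by positivity)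
        rw [abs_of_nonneg (ind_nonneg _)]; exact ind_le_one _
      · simp only [sum_const, card_univ, Fintype.card_fun, Fintype.card_fin, nsmul_eq_mul]
        push_cast
        nlinarith [mul_nonneg (pow_nonneg hμ0 k) hΛ0]
  · rw [integral_const_mul, integral_add (integrable_const _) ((integrable_Bad U).const_mul _),
      integral_const_mul]
    simp only [integral_const, probReal_univ, smul_eq_mul, one_mul]
    gcongr

lemma GE_diff (hk : 1 ≤ k) (h0 : 0 < τ) (h1 : τ ^ 2 ≤ 1 / 8) {μ ε : ℝ}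
    (hμ : ∀ u v, |U u v| ≤ μ) (hε : ∫ g, Bad (k := k) U τ g ∂gm (Fin k × V) ≤ ε)
    (r d : ℕ) (hd : 1 ≤ d) {f : (Fin (k + 1) × V → Bool) → Bool} (hf : Dep (fun i x => x i) d f)
    {Λ : ℝ} (hΛ0 : 0 ≤ Λ) [Nonempty V]
    (hΛ : 3 * Wt r d ^ (k + 1) * (Fintype.card V : ℝ) ^ (k + 1) ≤ Λ ^ (2 * r + 2)) :
    |GE (PD U τ (fun x => ind (f x)) ∅ 1) - GE (PD U τ (fun x => ind (f x)) ∅ 0)|
      ≤ τ ^ (2 * k) * (μ ^ k * (Λ + (Fintype.card V : ℝ) ^ (k + 1) * ε)) := by
  obtain ⟨l, hl, e⟩ := exists_hasDerivAt_eq_slope (fun l => GE (PD U τ (fun x => ind (f x)) ∅ l))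
    _ zero_lt_one (fun l _ => (hasDerivAt_PD U τ _ l).continuousAt.continuousWithinAt)
    (fun l _ => hasDerivAt_PD U τ _ l)
  rw [sub_zero, div_one] at e
  rw [← e, abs_mul, abs_of_nonneg (by positivity)]
  gcongr
  exact deriv_bound hk h0 h1 hμ hε r d hd hf hΛ0 hΛ (abs_le.2 ⟨by linarith [hl.1], hl.2.le⟩)

variable (U τ)

open Classical in
/-- truncated means -/
noncomputable def zt (l : ℝ) (g : Fin k × V → ℝ) : Fin (k + 1) × V → ℝ :=
  if good U τ g then zv U τ l g else 0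

/-- the hard distributions -/
noncomputable def DD (l : ℝ) (x : Fin (k + 1) × V → Bool) : ℝ :=
  ∫ g, ∏ i, pd ∅ (zt U τ l g) i (x i) ∂gm (Fin k × V)

variable {U τ}

lemma zt_small (hk : 1 ≤ k) {l : ℝ} (hl : |l| ≤ 1) (g : Fin k × V → ℝ) (i : Fin (k + 1) × V) :
    |zt U τ l g i| ≤ 1 / 2 := by
  unfold zt
  split_ifs with h
  · exact zv_small U hk hl h i
  · simp

lemma integrable_pd (hk : 1 ≤ k) {l : ℝ} (hl : |l| ≤ 1) (x : Fin (k + 1) × V → Bool) :
    Integrable (fun g => ∏ i, pd ∅ (zt U τ l g) i (x i)) (gm (Fin k × V)) := by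
  have hm : MeasurableSet {g : Fin k × V → ℝ | good U τ g} := by
    simp only [good, Set.ofPred_forall]
    refine MeasurableSet.iInter fun w => measurableSet_le ?_ measurable_const
    unfold uv
    split_ifs <;> fun_prop
  have h1 : ∀ i, Measurable fun g => zt U τ l g i := fun i => by
    simp only [zt, ite_apply]
    exact Measurable.ite hm (MvPolynomial.continuous_eval _).measurable measurable_const
  refine Integrable.of_bound (C := 1) (Measurable.aestronglyMeasurable ?_) (ae_of_all _ fun g => ?_)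
  · refine Finset.measurable_prod _ fun i _ => ?_
    simp only [pd, notMem_empty, if_false]
    have := h1 i
    fun_prop
  · have hp := pd_isP (zt_small (U := U) (τ := τ) hk hl g)
    rw [Real.norm_eq_abs, abs_of_nonneg (prod_nonneg fun i _ => (hp i).1 _)]
    refine prod_le_one (fun i _ => (hp i).1 _) fun i _ => ?_
    rw [← (hp i).2]
    exact single_le_sum (fun b _ => (hp i).1 b) (mem_univ _)

lemma integrable_Ex (hk : 1 ≤ k) {l : ℝ} (hl : |l| ≤ 1) (f : (Fin (k + 1) × V → Bool) → ℝ) :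
    Integrable (fun g => Ex (pd ∅ (zt U τ l g)) f) (gm (Fin k × V)) :=
  integrable_finsetSum _ fun x _ => (integrable_pd hk hl x).mul_const _

lemma sum_DD (hk : 1 ≤ k) {l : ℝ} (hl : |l| ≤ 1) (f : (Fin (k + 1) × V → Bool) → ℝ) :
    ∑ x, DD U τ l x * f x = ∫ g, Ex (pd ∅ (zt U τ l g)) f ∂gm (Fin k × V) := by
  simp only [Ex, DD]
  rw [integral_finsetSum _ fun x _ => (integrable_pd hk hl x).mul_const _]
  simp only [integral_mul_const]

lemma DD_isP (hk : 1 ≤ k) {l : ℝ} (hl : |l| ≤ 1) : IsP (DD (k := k) U τ l) := by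
  refine ⟨fun x => integral_nonneg fun g => prod_nonneg fun i _ =>
    (pd_isP (zt_small hk hl g) i).1 _, ?_⟩
  have := sum_DD (U := U) (τ := τ) hk hl (fun _ => 1)
  simpa [Ex_const (pd_sum _)] using this

lemma DD_close (hk : 1 ≤ k) (h0 : 0 < τ) (h1 : τ ^ 2 ≤ 1 / 8) {ε : ℝ}
    (hε : ∫ g, Bad (k := k) U τ g ∂gm (Fin k × V) ≤ ε) {l : ℝ} (hl : |l| ≤ 1)
    {f : (Fin (k + 1) × V → Bool) → ℝ} (hf : ∀ x, |f x| ≤ 1) :
    |∑ x, DD U τ l x * f x - GE (PD U τ f ∅ l)| ≤ 2 * ε := by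
  rw [sum_DD hk hl, GE_apply, ← integral_sub (integrable_Ex hk hl f) (integrable_eval _),
    ← Real.norm_eq_abs]
  refine (norm_integral_le_of_norm_le ((integrable_Bad (k := k) (τ := τ) U).const_mul 2)
    (ae_of_all _ fun g => ?_)).trans ?_
  · rw [Real.norm_eq_abs, eval_PD]
    have hb := Bad_nonneg U h0 h1 g
    by_cases hg : good U τ g
    · simp [zt, hg, hb]
    · have a1 := Ex_abs_le (pd_isP (zt_small (U := U) (τ := τ) hk hl g)) hf
      have a2 := abs_Ex_pd_le ∅ (zv U τ l g) hf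
      have a3 := prod_max_le U h0 h1 hl hg
      have a4 := one_le_prod_max univ fun i => |zv U τ l g i|
      exact (abs_sub _ _).trans (by linarith)
  · rw [integral_const_mul]; linarith

end Crest.Agent.R350
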