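import Crest.Agent.R350.Hid3

set_option autoImplicit false
set_option linter.unusedSectionVars false
open Finset MvPolynomial MeasureTheory

namespace Crest.Agent.R350

variable {V : Type} [Fintype V] [DecidableEq V] {k : ℕ}

/-- the vectors in the iterated Forrelation circuit -/
def wv {A : Type*} [CommRing A] (U : V → V → A) (μ : A) (z : ℕ → V → A) : ℕ → V → A
  | 0 => fun _ => μ
  | j + 1 => fun v => ∑ u, U u v * (z j u * wv U μ z j u)

/-- extension by zero -/
def ex {A : Type*} [Zero A] (z : Fin (k + 1) × V → A) (j : ℕ) (u : V) : A :=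
  if h : j < k + 1 then z (⟨j, h⟩, u) else 0

lemma ex_val {A : Type*} [Zero A] (z : Fin (k + 1) × V → A) (j : Fin (k + 1)) (u : V) :
    ex z j u = z (j, u) := by simp [ex, j.2]

lemma wv_map {A B : Type*} [CommRing A] [CommRing B] (φ : A →+* B) (U : V → V → A) (μ : A)
    (z : ℕ → V → A) (j : ℕ) (v : V) :
    φ (wv U μ z j v) = wv (fun u v => φ (U u v)) (φ μ) (fun j u => φ (z j u)) j v := by
  induction j generalizing v with
  | zero => rfl
  | succ j ih => simp [wv, ih]

lemma wv_congr {A : Type*} [CommRing A] (U : V → V → A) (μ : A) {z z' : ℕ → V → A} (j : ℕ)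
    (h : ∀ i < j, z i = z' i) : wv U μ z j = wv U μ z' j := by
  induction j with
  | zero => rfl
  | succ j ih => simp only [wv, ih fun i hi => h i (by omega), h j (by omega)]

/-- the Forrelation value -/
noncomputable def Phi (U : V → V → ℝ) (μ : ℝ) (v0 : V) (x : Fin (k + 1) × V → Bool) : ℝ :=
  wv U μ (ex fun i => sg (x i)) (k + 1) v0

variable {U : V → V → ℝ} {μ τ : ℝ}

lemma ex_update (x : Fin (k + 1) × V → Bool) (j : Fin (k + 1)) (u : V) (b : Bool) {i : ℕ}
    (hi : i ≠ j) : ex (fun i => sg (Function.update x (j, u) b i)) i = ex (fun i => sg (x i)) i := by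
  funext v
  unfold ex
  split_ifs with h
  · beta_reduce
    rw [Function.update_of_ne]
    intro e
    exact hi (congrArg (fun q => q.1.val) e)
  · rfl

lemma Ex_sg_mul {ι : Type*} [Fintype ι] [DecidableEq ι] (z : ι → ℝ) (i : ι) (G : (ι → Bool) → ℝ)
    (hG : ∀ x b, G (Function.update x i b) = G x) :
    Ex (pd ∅ z) (fun x => sg (x i) * G x) = z i * Ex (pd ∅ z) G := by
  rw [Ex_resample _ i (pd_sum z i), ← Ex_mul]
  congr 1
  funext x
  simp [hG, pd]; ring

lemma Ex_wv (z : Fin (k + 1) × V → ℝ) (j : ℕ) (hj : j ≤ k + 1) (v : V) :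
    Ex (pd ∅ z) (fun x => wv U μ (ex fun i => sg (x i)) j v) = wv U μ (ex z) j v := by
  induction j generalizing v with
  | zero => exact Ex_const (pd_sum z) _
  | succ j ih =>
    simp only [wv]
    rw [Ex_sum]
    refine sum_congr rfl fun u _ => ?_
    lift j to Fin (k + 1) using hj
    simp only [ex_val]
    rw [Ex_mul, Ex_sg_mul, ih (by omega)]
    intro x b
    rw [wv_congr U μ j fun i hi => ex_update x j u b hi.ne]

lemma orth_col (hU : ∀ y : V → ℝ, ∑ u, (∑ v, U u v * y v) ^ 2 = ∑ v, y v ^ 2) (v v' : V) :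
    ∑ u, U u v * U u v' = if v = v' then 1 else 0 := by
  have h1 : ∀ v, ∑ u, U u v ^ 2 = 1 := fun v => by
    simpa [Pi.single_apply] using hU (Pi.single v 1)
  split_ifs with h
  · subst h; simpa [sq] using h1 v
  · have h2 := hU (Pi.single v 1 + Pi.single v' 1)
    have h3 : ∑ w, (Pi.single v 1 + Pi.single v' 1 : V → ℝ) w ^ 2 = 2 := by
      simp only [Pi.add_apply, add_sq, sum_add_distrib, Pi.single_apply]
      simp [Ne.symm h]; norm_num
    rw [h3] at h2
    simp only [Pi.add_apply, mul_add, sum_add_distrib, Pi.single_apply, mul_ite, mul_one, mul_zero,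
      sum_ite_eq', mem_univ, if_true, add_sq, h1, mul_assoc, ← mul_sum] at h2
    linarith

lemma pderiv_wv (l : ℝ) (j : Fin k) (b : V) (i : ℕ) (hi : i ≤ j) (v : V) :
    pderiv (j, b) (wv (fun u v => C (U u v)) (C μ) (ex (Zp U τ l)) i v) = 0 := by
  induction i generalizing v with
  | zero => simp [wv]
  | succ i ih =>
    simp only [wv, map_sum, pderiv_mul, ih (by omega), mul_zero, add_zero]
    refine sum_eq_zero fun u _ => ?_
    have h : i < k + 1 := by omega
    rw [ex, dif_pos h, Zp, pderiv_mul, pderiv_Xp, pderiv_Yp, if_neg]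
    · simp
    · intro e; have := congrArg Fin.val e; simp at this; omega
    · intro e; have := congrArg (fun q => q.1.val) e; simp at this; omega

lemma GE_wv (hU : ∀ y : V → ℝ, ∑ u, (∑ v, U u v * y v) ^ 2 = ∑ v, y v ^ 2) (l : ℝ)
    (j : Fin (k + 1)) (v : V) :
    GE (Yp U τ l j v * wv (fun u v => C (U u v)) (C μ) (ex (Zp U τ l)) j v)
      = l * μ * τ ^ (2 * j.val) := by
  induction j using Fin.induction generalizing v with
  | zero =>
    show GE (C l * C μ) = _
    rw [← C_mul, GE_C]; simp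
  | succ j ih =>
    have e : ∀ u, ex (Zp U τ l) j u = Yp U τ l j.castSucc u * (C τ * X (j, u)) := fun u => by
      have := ex_val (Zp U τ l) j.castSucc u
      simp only [Fin.val_castSucc] at this
      rw [this]; simp [Zp, Xp]
    simp only [Fin.val_succ, wv, mul_sum, map_sum, e]
    rw [sum_congr rfl (g := fun u => U u v * U u v * (τ ^ 2 * (l * μ * τ ^ (2 * j.val)))) ?_]
    · rw [← sum_mul, orth_col hU, if_pos rfl]; ring
    · intro u _
      set r := Yp U τ l j.castSucc u * wv (fun u v => C (U u v)) (C μ) (ex (Zp U τ l)) j u with hr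
      have h1 : pderiv (j, u) r = 0 := by
        rw [hr, pderiv_mul, pderiv_wv l j u _ le_rfl, pderiv_Yp, if_neg (Fin.castSucc_lt_succ).ne]
        simp
      have h2 : GE r = l * μ * τ ^ (2 * j.val) := ih u
      rw [show Yp U τ l j.succ v * (C (U u v) * (Yp U τ l j.castSucc u * (C τ * X (j, u)) *
        wv (fun u v => C (U u v)) (C μ) (ex (Zp U τ l)) j u))
        = C (U u v * τ) * (X (j, u) * (Yp U τ l j.succ v * r)) by rw [hr, C_mul]; ring,
        GE_C_mul, stein, pderiv_mul, h1, pderiv_Yp, if_pos rfl, mul_zero, add_zero, GE_C_mul, h2]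
      ring

lemma GE_Phi (hU : ∀ y : V → ℝ, ∑ u, (∑ v, U u v * y v) ^ 2 = ∑ v, y v ^ 2) {v0 : V}
    (h0 : ∀ u, U u v0 = μ) (l : ℝ) :
    GE (PD (k := k) U τ (Phi U μ v0) ∅ l) = l * τ ^ (2 * k) := by
  have e : GE (PD (k := k) U τ (Phi U μ v0) ∅ l)
      = GE (wv (fun u v => C (U u v)) (C μ) (ex (Zp (k := k) U τ l)) (k + 1) v0) := by
    simp only [GE_apply, eval_PD]
    congr 1
    funext g
    unfold Phi
    rw [Ex_wv _ _ le_rfl, wv_map (eval g)]
    simp only [eval_C]
    congr 1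
    funext j u
    unfold ex
    split_ifs <;> simp [zv]
  have e2 : ∀ u, ex (Zp (k := k) U τ l) k u = Yp U τ l (Fin.last k) u := fun u => by
    have := ex_val (Zp U τ l) (Fin.last k) u
    simp only [Fin.val_last] at this
    rw [this]; simp [Zp, Xp]
  have e3 := orth_col hU v0 v0
  simp only [h0, if_true, ← sum_mul] at e3
  rw [e]
  simp only [wv, map_sum, GE_C_mul, e2, h0]
  have := fun u => GE_wv (k := k) (μ := μ) (τ := τ) hU l (Fin.last k) u
  simp only [Fin.val_last] at this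
  simp only [this, ← sum_mul]
  linear_combination (l * τ ^ (2 * k)) * e3

lemma wv_norm (hs : ∀ u v, U u v = U v u)
    (hU : ∀ y : V → ℝ, ∑ u, (∑ v, U u v * y v) ^ 2 = ∑ v, y v ^ 2) {v0 : V}
    (h0 : ∀ u, U u v0 = μ) (x : Fin (k + 1) × V → Bool) (j : ℕ) (hj : j ≤ k + 1) :
    ∑ v, wv U μ (ex fun i => sg (x i)) j v ^ 2 = 1 := by
  induction j with
  | zero => simpa [wv, h0, sq] using orth_col hU v0 v0
  | succ j ih =>
    lift j to Fin (k + 1) using hj
    simp only [wv, ex_val]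
    rw [sum_congr rfl fun v _ => by rw [sum_congr rfl fun u _ => by rw [hs u v]], hU]
    simp only [mul_pow, sg_sq, one_mul]
    exact ih (by omega)

lemma abs_Phi_le (hs : ∀ u v, U u v = U v u)
    (hU : ∀ y : V → ℝ, ∑ u, (∑ v, U u v * y v) ^ 2 = ∑ v, y v ^ 2) {v0 : V}
    (h0 : ∀ u, U u v0 = μ) (x : Fin (k + 1) × V → Bool) : |Phi U μ v0 x| ≤ 1 := by
  rw [← sq_le_one_iff_abs_le_one, ← wv_norm hs hU h0 x (k + 1) le_rfl]
  exact single_le_sum (f := fun v => wv U μ (ex fun i => sg (x i)) (k + 1) v ^ 2)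
    (fun _ _ => sq_nonneg _) (mem_univ v0)

lemma Ex_wv_sq (hU : ∀ y : V → ℝ, ∑ u, (∑ v, U u v * y v) ^ 2 = ∑ v, y v ^ 2)
    (z : Fin (k + 1) × V → ℝ) (hz : ∀ u, z (0, u) = 0) (j : ℕ) (hj : j ≤ k) :
    ∀ (G : (Fin (k + 1) × V → Bool) → ℝ), (∀ x u b, G (Function.update x (0, u) b) = G x) →
    ∀ v v', Ex (pd ∅ z) (fun x => G x * (wv U μ (ex fun i => sg (x i)) (j + 1) v
      * wv U μ (ex fun i => sg (x i)) (j + 1) v'))
      = (if v = v' then μ ^ 2 else 0) * Ex (pd ∅ z) G := by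
  have key : ∀ j : Fin (k + 1), (∀ (G : (Fin (k + 1) × V → Bool) → ℝ),
      (∀ x u b, G (Function.update x (0, u) b) = G x) → ∀ u u',
      Ex (pd ∅ z) (fun x => G x * ((sg (x (j, u)) * wv U μ (ex fun i => sg (x i)) j u)
        * (sg (x (j, u')) * wv U μ (ex fun i => sg (x i)) j u')))
        = (if u = u' then μ ^ 2 else 0) * Ex (pd ∅ z) G) →
      ∀ (G : (Fin (k + 1) × V → Bool) → ℝ), (∀ x u b, G (Function.update x (0, u) b) = G x) →
      ∀ v v', Ex (pd ∅ z) (fun x => G x * (wv U μ (ex fun i => sg (x i)) (j + 1) v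
        * wv U μ (ex fun i => sg (x i)) (j + 1) v'))
        = (if v = v' then μ ^ 2 else 0) * Ex (pd ∅ z) G := by
    intro j h G hG v v'
    simp only [wv, ex_val, sum_mul_sum]
    simp only [mul_sum]
    rw [Ex_sum, sum_congr rfl (g := fun u => U u v * U u v' * (μ ^ 2 * Ex (pd ∅ z) G)) ?_]
    · rw [← sum_mul, orth_col hU]; split_ifs <;> simp
    · intro u _
      rw [Ex_sum, sum_congr rfl (g := fun u' => U u v * U u' v' *
        ((if u = u' then μ ^ 2 else 0) * Ex (pd ∅ z) G)) ?_]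
      · simp
      · intro u' _
        rw [← h G hG, ← Ex_mul]
        congr 1
        funext x
        ring
  induction j with
  | zero =>
    refine key 0 fun G hG u u' => ?_
    simp only [Fin.val_zero, wv]
    split_ifs with h
    · subst h
      rw [← Ex_mul]
      congr 1
      funext x
      linear_combination (G x * μ ^ 2) * sg_mul_self (x (0, u))
    · have := Ex_sg_mul z (0, u) (fun x => G x * μ ^ 2 * sg (x (0, u'))) fun x b => by
        rw [hG, Function.update_of_ne (by simp [Ne.symm h])]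
      rw [hz, zero_mul] at this
      rw [zero_mul, ← this]
      congr 1
      funext x
      ring
  | succ j ih =>
    refine key ⟨j + 1, by omega⟩ fun G hG u u' => ?_
    have := ih (by omega) (fun x => G x * (sg (x (⟨j + 1, by omega⟩, u))
      * sg (x (⟨j + 1, by omega⟩, u')))) (fun x w b => by
        rw [hG, Function.update_of_ne (by simp), Function.update_of_ne (by simp)]) u u'
    split_ifs at this ⊢ with h
    · subst h
      simp only [sg_mul_self, mul_one] at this
      rw [← this]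
      congr 1
      funext x
      linear_combination (G x * wv U μ (ex fun i => sg (x i)) (j + 1) u ^ 2)
        * sg_mul_self (x (⟨j + 1, by omega⟩, u))
    · rw [zero_mul] at this ⊢
      rw [← this]
      congr 1
      funext x
      ring

theorem hidden (hk : 1 ≤ k) (hs : ∀ u v, U u v = U v u)
    (hU : ∀ y : V → ℝ, ∑ u, (∑ v, U u v * y v) ^ 2 = ∑ v, y v ^ 2) {v0 : V}
    (h0 : ∀ u, U u v0 = μ) (hμ : ∀ u v, |U u v| ≤ μ) (hτ : 0 < τ) (hτ1 : τ ^ 2 ≤ 1 / 8)
    {ε : ℝ} (hε : (1 + 2 * Real.exp (-(16 * τ ^ 2)⁻¹)) ^ (2 * k * Fintype.card V) - 1 ≤ ε)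
    (r d : ℕ) (hd : 1 ≤ d) {Λ : ℝ} (hΛ0 : 0 ≤ Λ)
    (hΛ : 3 * Wt r d ^ (k + 1) * (Fintype.card V : ℝ) ^ (k + 1) ≤ Λ ^ (2 * r + 2)) :
    ∃ D : Bool → (Fin (k + 1) × V → Bool) → ℝ, (∀ b, IsP (D b)) ∧
      (∀ f : (Fin (k + 1) × V → Bool) → Bool, Dep (fun i x => x i) d f →
        |∑ x, D true x * ind (f x) - ∑ x, D false x * ind (f x)|
          ≤ τ ^ (2 * k) * (μ ^ k * (Λ + (Fintype.card V : ℝ) ^ (k + 1) * ε)) + 4 * ε) ∧
      τ ^ (2 * k) - 2 * ε ≤ ∑ x, D true x * Phi U μ v0 x ∧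
      ∑ x, D false x * Phi U μ v0 x ^ 2 = μ ^ 2 := by
  have : Nonempty V := ⟨v0⟩
  have hε' := (integral_Bad (k := k) U hτ hU).trans hε
  have l0 : |(0 : ℝ)| ≤ 1 := by simp
  have l1 : |(1 : ℝ)| ≤ 1 := by simp
  refine ⟨fun b => DD U τ (if b then 1 else 0), fun b => DD_isP hk (by cases b <;> simp),
    fun f hf => ?_, ?_, ?_⟩
  · have hb : ∀ x, |ind (f x)| ≤ 1 := fun x => by
      rw [abs_of_nonneg (ind_nonneg _)]; exact ind_le_one _
    have a1 := abs_le.1 (DD_close hk hτ hτ1 hε' l0 hb)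
    have a2 := abs_le.1 (DD_close hk hτ hτ1 hε' l1 hb)
    have a3 := abs_le.1 (GE_diff hk hτ hτ1 hμ hε' r d hd hf hΛ0 hΛ)
    simp only [if_true, Bool.false_eq_true, if_false]
    rw [abs_le]
    constructor <;> linarith [a1.1, a1.2, a2.1, a2.2, a3.1, a3.2]
  · have a2 := abs_le.1 (DD_close hk hτ hτ1 hε' l1 (abs_Phi_le hs hU h0))
    rw [GE_Phi hU h0] at a2
    simp only [if_true]
    linarith [a2.1]
  · simp only [Bool.false_eq_true, if_false]
    rw [sum_DD hk l0]
    have : ∀ g : Fin k × V → ℝ, Ex (pd ∅ (zt U τ 0 g)) (fun x => Phi U μ v0 x ^ 2) = μ ^ 2 := by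
      intro g
      have := Ex_wv_sq (μ := μ) hU (zt U τ 0 g) (fun u => by
        unfold zt
        split_ifs
        · simp [zv, Zp, Yp]
        · rfl) k le_rfl (fun _ => 1) (fun _ _ _ => rfl) v0 v0
      simpa [Ex_const (pd_sum _), Phi, sq] using this
    simp [this]

end Crest.Agent.R350
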