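import Crest.Agent.R350.Constr

set_option autoImplicit false
open Finset Filter Crest.MathPhysics.Query

namespace Crest.Agent.R350

lemma ev_pow (A : ℝ) (e : ℕ) : ∀ᶠ n : ℕ in atTop, A * (n : ℝ) ^ e ≤ 2 ^ n := by
  have h := (tendsto_pow_const_div_const_pow_of_one_lt e (r := 2) one_lt_two).const_mul A
  rw [mul_zero] at h
  filter_upwards [h.eventually (gt_mem_nhds one_pos)] with n hn
  rw [← mul_div_assoc, div_lt_one (by positivity)] at hn
  exact hn.le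

lemma two_pow_le_exp (y : ℕ) : (2 : ℝ) ^ y ≤ Real.exp y := by
  rw [← Real.exp_one_pow]
  exact pow_le_pow_left₀ (by norm_num) (by linarith [Real.add_one_le_exp (1 : ℝ)]) _

lemma one_sub_pow_le {a : ℝ} (ha : a ≤ 1) {T y : ℕ} (h : (y : ℝ) ≤ a * T) :
    (1 - a) ^ T ≤ (2 ^ y)⁻¹ := by
  calc _ ≤ Real.exp (-a) ^ T :=
        pow_le_pow_left₀ (by linarith) (by linarith [Real.add_one_le_exp (-a)]) _
    _ = (Real.exp (a * T))⁻¹ := by rw [← Real.exp_nat_mul, ← Real.exp_neg]; congr 1; ring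
    _ ≤ _ := inv_anti₀ (by positivity) ((two_pow_le_exp y).trans (Real.exp_le_exp.2 h))

lemma eps_bound {k n : ℕ} (h1 : 16 * (k + 4) ≤ n) (h2 : 8 * (k : ℝ) ≤ 2 ^ n) :
    (1 + 2 * Real.exp (-(16 * ((n : ℝ)⁻¹) ^ 2)⁻¹)) ^ (2 * k * 2 ^ n) - 1
      ≤ (((2 : ℝ) ^ n) ^ (k + 2))⁻¹ := by
  set a := 2 * Real.exp (-(16 * ((n : ℝ)⁻¹) ^ 2)⁻¹) with ha
  have a0 : 0 ≤ a := by positivity
  have h3 : a ≤ 2 * ((2 ^ n) ^ (k + 4))⁻¹ := by
    rw [ha, Real.exp_neg, ← pow_mul]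
    gcongr
    refine (two_pow_le_exp _).trans (Real.exp_le_exp.2 ?_)
    have : (16 * (k + 4) : ℝ) ≤ n := by exact_mod_cast h1
    have h0 : (0 : ℝ) ≤ n := by positivity
    rw [mul_inv, inv_pow, inv_inv]
    push_cast
    nlinarith
  have h4 : 2 * (((2 * k * 2 ^ n : ℕ) : ℝ) * a) ≤ (((2 : ℝ) ^ n) ^ (k + 2))⁻¹ := by
    calc _ ≤ 2 * (((2 * k * 2 ^ n : ℕ) : ℝ) * (2 * ((2 ^ n) ^ (k + 4))⁻¹)) := by gcongr
      _ = (8 * k / 2 ^ n) * (((2 : ℝ) ^ n) ^ (k + 2))⁻¹ := by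
          push_cast; field_simp; ring
      _ ≤ 1 * (((2 : ℝ) ^ n) ^ (k + 2))⁻¹ := by
          gcongr
          exact div_le_one_of_le₀ h2 (by positivity)
      _ = _ := by ring
  have h5 : (((2 : ℝ) ^ n) ^ (k + 2))⁻¹ ≤ 1 :=
    inv_le_one_of_one_le₀ (one_le_pow₀ (one_le_pow₀ one_le_two))
  have h6 : (1 + a) ^ (2 * k * 2 ^ n) ≤ Real.exp (((2 * k * 2 ^ n : ℕ) : ℝ) * a) := by
    rw [Real.exp_nat_mul]
    exact pow_le_pow_left₀ (by positivity) (by linarith [Real.add_one_le_exp a]) _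
  have h7 : 0 ≤ ((2 * k * 2 ^ n : ℕ) : ℝ) * a := by positivity
  have h8 := Real.abs_exp_sub_one_le (x := ((2 * k * 2 ^ n : ℕ) : ℝ) * a)
    (by rw [abs_of_nonneg h7]; linarith)
  rw [abs_of_nonneg h7] at h8
  linarith [(abs_le.1 h8).2]

lemma lam_bound {k n j L r : ℕ} (hk : 1 ≤ k) (hn : n = 2 * j) (hn0 : 0 < n)
    (hr : r + 1 = 2 * k * (k + 1)) (hL : (L : ℝ) ^ k ≤ (2 ^ n) ^ (k - 1))
    (h : 3 * ((2 * r + 2 : ℝ) ^ 2 * 2 ^ (2 * r + 2)) ^ ((r + 1) * (k + 1)) * 240 ^ (2 * r + 2)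
      * (n : ℝ) ^ (2 * (2 * r + 2)) ≤ 2 ^ n) :
    3 * Wt r L ^ (k + 1) * ((2 : ℝ) ^ n) ^ (k + 1)
      ≤ (((2 : ℝ) ^ j) ^ k / (240 * n ^ 2)) ^ (2 * r + 2) := by
  obtain ⟨k, rfl⟩ : ∃ k', k = k' + 1 := ⟨k - 1, by omega⟩
  set N : ℝ := 2 ^ n with hN
  have hN1 : 1 ≤ N := one_le_pow₀ one_le_two
  have e1 : (((2 : ℝ) ^ j) ^ (k + 1)) ^ (2 * r + 2)
      = N ^ (k + 2) * (N ^ k) ^ (2 * (k + 2) ^ 2) * N ^ (k + 2) := by
    rw [hN, hn, show 2 * r + 2 = 2 * (r + 1) by ring, hr]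
    simp only [← pow_mul, ← pow_add]
    congr 1; ring
  have e2 : (L : ℝ) ^ ((r + 1) * (k + 1 + 1)) ≤ (N ^ k) ^ (2 * (k + 2) ^ 2) := by
    rw [hr, show 2 * (k + 1) * (k + 1 + 1) * (k + 1 + 1) = (k + 1) * (2 * (k + 2) ^ 2) by ring,
      pow_mul]
    exact pow_le_pow_left₀ (by positivity) (by simpa using hL) _
  have e3 : N ≤ N ^ (k + 2) := le_self_pow₀ hN1 (by omega)
  clear_value N
  rw [div_pow, le_div_iff₀ (by positivity), e1, Wt, ← pow_mul, mul_pow _ (L : ℝ), mul_pow 240,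
    ← pow_mul]
  calc _ = (3 * ((2 * r + 2 : ℝ) ^ 2 * 2 ^ (2 * r + 2)) ^ ((r + 1) * (k + 1 + 1))
        * 240 ^ (2 * r + 2) * (n : ℝ) ^ (2 * (2 * r + 2))) * (L : ℝ) ^ ((r + 1) * (k + 1 + 1))
        * N ^ (k + 2) := by ring
    _ ≤ _ := by gcongr; exact h.trans e3

lemma cost_bound {k n Y W : ℕ} (hn : 64 * (k + 1) + 16 ≤ n) (hW : W ≤ 3 * (n ^ (k + 3) * Y))
    (hW1 : 1 ≤ W) :
    n ^ 3 * (W * (n ^ 3 * (n * (4 * n ^ (2 * k + 1) * (16 * n ^ (4 * k + 1) * (k + 1))) + (n + 1)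
      + (n * (4 * n ^ (2 * k + 1) * (16 * n ^ (4 * k + 1) * (k + 1))) + (n + 1)))))
      + n ^ 3 * (n * (4 * n ^ (2 * k + 1) * (16 * n ^ (4 * k + 1) * (k + 1)))
        + n ^ 3 * (W * ((4 * n ^ (2 * k + 1) + 4) * (n * (k + 1) + 2))))
      ≤ 12 * Y * n ^ (7 * k + 13) := by
  have hn1 : 1 ≤ n := by omega
  have h1 : n ≤ n ^ (6 * k + 3) := Nat.le_self_pow (by omega) n
  have h2 : n * (4 * n ^ (2 * k + 1) * (16 * n ^ (4 * k + 1) * (k + 1))) + (n + 1)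
      ≤ n ^ (6 * k + 4) := by
    calc _ = 64 * (k + 1) * n ^ (6 * k + 3) + (n + 1) := by ring
      _ ≤ (64 * (k + 1) + 2) * n ^ (6 * k + 3) := by nlinarith
      _ ≤ n * n ^ (6 * k + 3) := by gcongr; omega
      _ = _ := by ring
  have h3 : (4 * n ^ (2 * k + 1) + 4) * (n * (k + 1) + 2) ≤ n ^ (6 * k + 4) := by
    have a1 : 1 ≤ n ^ (2 * k + 1) := Nat.one_le_pow _ _ hn1
    calc _ ≤ (n * n ^ (2 * k + 1)) * (n * n) := by
          gcongr <;> nlinarith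
      _ = n ^ (2 * k + 4) := by ring
      _ ≤ _ := Nat.pow_le_pow_right hn1 (by omega)
  have h4 : 1 ≤ n ^ 3 * W := Nat.mul_pos (by positivity) hW1
  set P := n ^ (6 * k + 4) with hP
  calc _ ≤ n ^ 3 * (W * (n ^ 3 * (P + P))) + n ^ 3 * (n ^ 3 * W * P + n ^ 3 * (W * P)) := by
        refine add_le_add (by gcongr) (Nat.mul_le_mul_left _ (add_le_add ?_ (by gcongr)))
        exact (le_of_add_le_left h2).trans (Nat.le_mul_of_pos_left _ h4)
    _ = 4 * n ^ 6 * P * W := by ring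
    _ ≤ 4 * n ^ 6 * P * (3 * (n ^ (k + 3) * Y)) := by gcongr
    _ = _ := by rw [hP]; ring

lemma aux1 {x : ℝ} (h : 64 ≤ x) : 8 * (x + 1) * (x + 4) ≤ x ^ 3 := by
  nlinarith [mul_nonneg (sub_nonneg.2 h) (sq_nonneg x), mul_nonneg (sub_nonneg.2 h) (sub_nonneg.2 h)]

lemma aux2 {x : ℝ} (h : 64 ≤ x) : x ≤ 1 / 8 * x ^ 5 := by
  nlinarith [pow_le_pow_left₀ (by norm_num) h 4]

lemma aux3 {x N k : ℝ} {e : ℕ} (h : 64 ≤ x) (hk : 64 * (k + 1) + 64 ≤ x) (k0 : 0 < k) (a1 : x ≤ N) :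
    N + (N + (x * (4 * x ^ (e + 1)) * ((k + 1) * ((x + 1) * N)) + x)) ≤ x ^ (e + 6) * N := by
  have N0 : 0 ≤ N := by linarith
  have a2 : 1 ≤ x ^ (e + 1) := one_le_pow₀ (by linarith)
  have a3 : x * (4 * x ^ (e + 1)) * ((k + 1) * ((x + 1) * N))
      ≤ x * (4 * x ^ (e + 1)) * (x * ((2 * x) * N)) := by gcongr <;> linarith
  have a4 : x ^ (e + 6) * N = (x ^ 2 * x ^ 3) * (x ^ (e + 1) * N) := by ring
  have a5 : N ≤ x ^ (e + 1) * N := le_mul_of_one_le_left N0 a2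
  have a6 : 1 ≤ x ^ 3 := one_le_pow₀ (by linarith)
  have a7 : (3 + 8 * x ^ 3) * (x ^ (e + 1) * N)
      ≤ (x ^ 2 * x ^ 3) * (x ^ (e + 1) * N) := by
    have : 11 ≤ x ^ 2 := by nlinarith
    gcongr; nlinarith
  nlinarith

lemma aux4 {g : ℝ} (h0 : 0 < g) (h1 : g ≤ 1) : (g / 4) ^ 2 ≤ 1 := by nlinarith

lemma aux5 {a b : ℝ} (h0 : 1 ≤ a) (h1 : 1 ≤ b) : 1 ≤ 4 * a * (16 * b) := by nlinarith

set_option maxHeartbeats 1000000 in
theorem main_ev (k : ℕ) (hk : 2 ≤ k) : ∀ᶠ n : ℕ in atTop, ∀ j, n = 2 * j →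
    ∃ (N : ℕ) (F : (Fin N → Bool) → Bool),
      (∃ q : ℕ, q ≤ 12 * 2 ^ j * n ^ (7 * k + 13) ∧ QuantumComputes F q) ∧
      ∀ r : ℕ, RandomizedComputes F r →
        (1 / 5 : ℝ) * (2 ^ n * ((2 : ℝ) ^ n) ^ (1 - 1 / (k : ℝ))) ≤ r := by
  obtain ⟨r, hr⟩ : ∃ r, r + 1 = 2 * k * (k + 1) := ⟨2 * k * (k + 1) - 1, by
    have : 0 < 2 * k * (k + 1) := by positivity
    omega⟩
  filter_upwards [eventually_ge_atTop (64 * (k + 1) + 64), ev_pow (8 * k) 0, ev_pow 9 (2 * k + 6),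
    ev_pow 5120 (8 * k + 9), ev_pow (20 ^ k) 0, ev_pow (3 * ((2 * r + 2 : ℝ) ^ 2
      * 2 ^ (2 * r + 2)) ^ ((r + 1) * (k + 1)) * 240 ^ (2 * r + 2)) (2 * (2 * r + 2))]
    with n hn H1 H2 H3 H4 H5 j hj
  rw [pow_zero, mul_one] at H1 H4
  set x : ℝ := (n : ℝ) with hx
  set N : ℝ := 2 ^ n with hN
  have hx1 : 64 ≤ x := by rw [hx]; exact_mod_cast (by omega : 64 ≤ n)
  have hxk : 64 * ((k : ℝ) + 1) + 64 ≤ x := by rw [hx]; exact_mod_cast hn
  have hN1 : 1 ≤ N := one_le_pow₀ one_le_two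
  have hpow : ∀ e, e ≤ 8 * k + 9 → 5120 * x ^ e ≤ N := fun e he =>
    le_trans (by gcongr; linarith) H3
  set μ : ℝ := (2 ^ j)⁻¹ with hμ
  have hNj : N = (2 ^ j) ^ 2 := by rw [hN, hj, ← pow_mul, mul_comm]
  have hμ2 : μ ^ 2 * 2 ^ n = 1 := by rw [← hN, hNj, hμ]; field_simp
  have hμ0 : 0 ≤ μ := by positivity
  have hμ1 : μ ≤ 1 := inv_le_one_of_one_le₀ (one_le_pow₀ one_le_two)
  set L := ⌊N ^ (1 - 1 / (k : ℝ))⌋₊ with hL
  have hk0 : (0 : ℝ) < k := by exact_mod_cast (by omega : 0 < k)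
  have hL1 : 1 ≤ L := Nat.le_floor (by
    rw [Nat.cast_one]
    refine Real.one_le_rpow hN1 ?_
    rw [sub_nonneg, div_le_one hk0]; exact_mod_cast (by omega : 1 ≤ k))
  have hLk : (L : ℝ) ^ k ≤ N ^ (k - 1) := by
    refine (pow_le_pow_left₀ (by positivity) (Nat.floor_le (by positivity)) k).trans (le_of_eq ?_)
    rw [← Real.rpow_natCast, ← Real.rpow_mul (by positivity), ← Real.rpow_natCast,
      Nat.cast_sub (by omega)]
    congr 1; field_simp; simp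
  have hLN : (L : ℝ) / N ≤ 1 / 20 := by
    rw [div_le_div_iff₀ (by positivity) (by norm_num), one_mul]
    refine le_of_pow_le_pow_left₀ (n := k) (by omega) (by positivity) ?_
    calc _ = (L : ℝ) ^ k * 20 ^ k := mul_pow _ _ _
      _ ≤ N ^ (k - 1) * N := by gcongr
      _ = _ := by rw [← pow_succ]; congr 1; omega
  set ε : ℝ := (N ^ (k + 2))⁻¹ with hε
  have hε1 : N ^ (k + 1) * ε = N⁻¹ := by rw [hε]; field_simp; ring
  have hε2 : ε ≤ N⁻¹ := inv_anti₀ (by positivity) (le_self_pow₀ hN1 (by omega))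
  obtain ⟨D, hD, hδ, hD1, hD0⟩ := hidden (k := k) (τ := x⁻¹) (ε := ε) (by omega) (Hm_symm μ)
    (Hm_orth hμ2) (Hm_zero μ) (abs_Hm hμ0) (by positivity)
    (by rw [inv_pow, one_div]
        exact inv_anti₀ (by norm_num) (le_trans (by linarith) (le_self_pow₀ (by linarith : 1 ≤ x)
          two_ne_zero)))
    (by simpa using eps_bound (k := k) (n := n) (by omega) H1) r L hL1
    (Λ := ((2 : ℝ) ^ j) ^ k / (240 * n ^ 2)) (by positivity)
    (by simpa using lam_bound (by omega) hj (by omega) hr hLk H5)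
  simp only [Fintype.card_fun, Fintype.card_bool, Fintype.card_fin, Nat.cast_pow, Nat.cast_ofNat,
    ← hN, ← hx, hε1] at hδ
  set g : ℝ := x⁻¹ ^ (2 * k) with hg
  have hg0 : 0 < g := by positivity
  have hgx : g * x ^ (2 * k) = 1 := by rw [hg, ← mul_pow, inv_mul_cancel₀ (by linarith), one_pow]
  have hg1 : g ≤ 1 := pow_le_one₀ (by positivity) (inv_le_one_of_one_le₀ (by linarith))
  have hNinv : ∀ e, e ≤ 8 * k + 9 → x ^ e * N⁻¹ ≤ 5120⁻¹ := fun e he => by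
    rw [← div_eq_mul_inv, div_le_iff₀ (by positivity)]; linarith [hpow e he]
  set R := 4 * n ^ (2 * k + 1) with hR
  set s := 16 * n ^ (4 * k + 1) with hs
  have hR' : (R : ℝ) = 4 * x ^ (2 * k + 1) := by rw [hR]; push_cast; rfl
  have hs' : (s : ℝ) = 16 * x ^ (4 * k + 1) := by rw [hs]; push_cast; rfl
  obtain ⟨dec, enc, hc⟩ := exists_code (n * (k + 1))
  set ρ := Nat.log 3 (n ^ (k + 3) * 2 ^ j) + 1 with hρ
  have hρ1 : n ^ (k + 3) * 2 ^ j < 3 ^ ρ := Nat.lt_pow_succ_log_self (by norm_num) _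
  have hρ2 : 3 ^ ρ ≤ 3 * (n ^ (k + 3) * 2 ^ j) := by
    rw [hρ, pow_succ, mul_comm]
    exact Nat.mul_le_mul_left _ (Nat.pow_log_le_self _ (by have : 0 < n := by omega
                                                           positivity))
  have hρ3 : x ^ (2 * k + 6) * N ≤ 9 ^ ρ := by
    have : (x ^ (k + 3) * 2 ^ j : ℝ) ≤ 3 ^ ρ := by rw [hx]; exact_mod_cast hρ1.le
    have := pow_le_pow_left₀ (by positivity) this 2
    rwa [mul_pow, ← hNj, ← pow_mul, ← pow_mul, mul_comm ρ, pow_mul 3,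
      show (3 : ℝ) ^ 2 = 9 by norm_num, show (k + 3) * 2 = 2 * k + 6 by ring] at this
  have hρ4 : (ρ : ℝ) ≤ x := by
    have a1 : (3 * x ^ (k + 3) : ℝ) ≤ 2 ^ j := by
      refine le_of_sq_le_sq ?_ (by positivity)
      rw [← hNj, mul_pow, ← pow_mul, show (k + 3) * 2 = 2 * k + 6 by ring]
      linarith
    have a2 : (3 : ℝ) ^ ρ ≤ 3 * (x ^ (k + 3) * 2 ^ j) := by rw [hx]; exact_mod_cast hρ2
    have a3 : (3 : ℝ) ^ ρ ≤ 3 ^ n :=
      calc _ ≤ _ := a2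
        _ = 3 * x ^ (k + 3) * 2 ^ j := by ring
        _ ≤ 2 ^ j * 2 ^ j := by gcongr
        _ = 2 ^ n := by rw [← hN, hNj, sq]
        _ ≤ _ := by gcongr; norm_num
    rw [hx]
    exact_mod_cast (pow_le_pow_iff_right₀ (by norm_num)).1 a3
  have hρ0 : (0 : ℝ) ≤ ρ := by positivity
  have hsub : ∀ c : ℝ, 1 ≤ c → c ≤ 8 → (1 - (c * (ρ + 1))⁻¹) ^ (n ^ 3) ≤ 16⁻¹ * N⁻¹ := by
    intro c c1 c8
    refine (one_sub_pow_le (y := n + 4) (inv_le_one_of_one_le₀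
      (one_le_mul_of_one_le_of_one_le c1 (by linarith))) ?_).trans
      (le_of_eq (by rw [pow_add, hN]; field_simp; norm_num))
    rw [le_inv_mul_iff₀ (by positivity)]
    push_cast
    rw [← hx]
    have : c * (ρ + 1) ≤ 8 * (x + 1) := by gcongr
    exact le_trans (by gcongr) (aux1 hx1)
  have hx5 : 1 ≤ x ^ 5 := one_le_pow₀ (by linarith)
  have hx3 : x ^ 3 * (x * (x ^ 5)⁻¹) = x⁻¹ := by field_simp
  obtain ⟨p, hp, hp'⟩ := quantum_part (n := n) (k := k) (R := R) (dec := dec) (μ := μ)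
    (γ := (g / 4) ^ 2) (ν := (x ^ 5)⁻¹ / (R * s)) hμ2 s ρ (n ^ 3) (n ^ 3) (η := (x ^ 5)⁻¹)
    (by positivity) (inv_le_one_of_one_le₀ hx5)
    ((one_sub_pow_le (y := n) (aux4 hg0 hg1) (le_of_eq (by
      rw [hs', ← hx, show 4 * k + 1 = 2 * k + 2 * k + 1 by ring, pow_succ, pow_add]
      linear_combination (-x * (g * x ^ (2 * k) + 1)) * hgx))).trans
      (inv_anti₀ (by positivity) (by linarith [hpow 5 (by omega)])))
    (by positivity)
    (div_le_one_of_le₀ ((inv_le_one_of_one_le₀ hx5).trans (by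
      rw [hR', hs']
      exact aux5 (one_le_pow₀ (by linarith)) (one_le_pow₀ (by linarith)))) (by positivity))
    (le_of_eq (by rw [hR', hs']; field_simp))
    (by
      rw [← hx, ← div_eq_mul_inv, div_le_iff₀ (by positivity)]
      exact aux2 hx1)
    (le_trans (by
      rw [← hN]
      gcongr
      exact le_trans (by linarith) (le_self_pow₀ (by linarith : 1 ≤ x) (by omega))) hρ3)
    (le_trans (by
      rw [← hN, ← hx, hR']
      exact aux3 hx1 hxk hk0 (by linarith [hpow 1 (by omega)])) hρ3)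
    (by
      push_cast
      rw [← hx, hx3]
      exact (inv_anti₀ (by norm_num) (by linarith : 2 ≤ x)).trans (by norm_num))
    (by
      rw [← hN]
      have := mul_le_mul_of_nonneg_left (hsub 8 (by norm_num) le_rfl) (by positivity : 0 ≤ N)
      rw [mul_left_comm N, mul_inv_cancel₀ (by positivity)] at this
      linarith)
    (by
      push_cast
      rw [← hx]
      have := mul_le_mul_of_nonneg_left (hsub 4 (by norm_num) (by norm_num))
        (by positivity : 0 ≤ x ^ 3)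
      linarith [hNinv 3 (by omega)])
  let e := Fintype.equivFin (Idx n k R)
  refine ⟨_, fun y => fn dec μ ((g / 4) ^ 2) ((x ^ 5)⁻¹ / (R * s)) fun i => y (e i),
    ⟨_, cost_bound (by omega) hρ2 (Nat.one_le_pow _ _ (by norm_num)),
      quantum_of_Rz (Fin.pos (e (fun _ => false, .inr (fun _ => false, .inl ())))) _
        (Rz.comap e hp) fun y => ?_⟩, fun q hq => ?_⟩
  · cases h : fn dec μ ((g / 4) ^ 2) ((x ^ 5)⁻¹ / (R * s)) fun i => y (e i)
    · have := (hp' _).2 h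
      simp; linarith
    · simpa using (hp' _).1 h
  · have h1 : g / 4 ≤ ∑ y, D true y *
        if (g / 4) ^ 2 ≤ Phi (Hm μ) μ (fun _ => false) y ^ 2 then 1 else 0 := by
      have a1 : ∑ y, D true y * Phi (Hm μ) μ (fun _ => false) y ≤ ∑ y, (D true y * (g / 4)
          + D true y * if (g / 4) ^ 2 ≤ Phi (Hm μ) μ (fun _ => false) y ^ 2 then 1 else 0) := by
        refine sum_le_sum fun y _ => ?_
        rw [← mul_add]
        refine mul_le_mul_of_nonneg_left ?_ ((hD true).1 y)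
        split_ifs with h
        · linarith [(abs_le.1 (abs_Phi_le (Hm_symm μ) (Hm_orth hμ2) (Hm_zero μ) y)).2]
        · rw [add_zero]
          exact le_of_sq_le_sq (not_le.1 h).le (by positivity)
      rw [sum_add_distrib, ← sum_mul, (hD true).2] at a1
      have a2 := mul_le_mul_of_nonneg_left (hNinv (2 * k) (by omega)) hg0.le
      rw [← mul_assoc, hgx] at a2
      linarith
    have h2 := classical_part hc D hD L hδ (by rw [hR', hs']; positivity) h1 hD0 (by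
      have a1 : (1 - g / 4) ^ R ≤ N⁻¹ := one_sub_pow_le (y := n) (by linarith) (le_of_eq (by
        rw [hR', ← hx, pow_succ]
        linear_combination (-x) * hgx))
      have a2 : μ ^ 2 = N⁻¹ := eq_inv_of_mul_eq_one_left hμ2
      have a3 : x * (R * (N⁻¹ / ((x ^ 5)⁻¹ / (R * s)))) = 256 * (x ^ (8 * k + 9) * N⁻¹) := by
        rw [hR', hs']; field_simp; ring
      have a4 := mul_le_mul_of_nonneg_left a1 (by positivity : 0 ≤ x)
      rw [← hx, a2, mul_add, a3]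
      linarith [hNinv 1 (by omega), hNinv (8 * k + 9) le_rfl]) e hq
    rw [← hN, ← hx, hR'] at h2
    have h3 : x * (4 * x ^ (2 * k + 1)) * (g * (μ ^ k * ((2 ^ j) ^ k / (240 * x ^ 2) + N⁻¹)) + 4 * ε)
        ≤ 1 / 20 := by
      have a1 : μ ^ k * ((2 ^ j) ^ k / (240 * x ^ 2)) = (240 * x ^ 2)⁻¹ := by
        rw [hμ, inv_pow]; field_simp
      have a2 : μ ^ k * N⁻¹ ≤ N⁻¹ := mul_le_of_le_one_left (by positivity) (pow_le_one₀ hμ0 hμ1)
      calc _ ≤ x * (4 * x ^ (2 * k + 1)) * (g * ((240 * x ^ 2)⁻¹ + N⁻¹) + 4 * N⁻¹) := by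
            rw [mul_add (μ ^ k), a1]; gcongr
        _ = (g * x ^ (2 * k)) * (1 / 60 + 4 * (x ^ 2 * N⁻¹)) + 16 * (x ^ (2 * k + 2) * N⁻¹) := by
            field_simp; ring
        _ ≤ _ := by
            rw [hgx]
            linarith [hNinv 2 (by omega), hNinv (2 * k + 2) (by omega)]
    refine le_trans ?_ h2
    rw [mul_assoc]
    exact mul_le_mul (by linarith) (mul_le_mul_of_nonneg_left (Nat.lt_floor_add_one _).le
      (by positivity)) (by positivity) (by linarith)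

end Crest.Agent.R350
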