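import Crest.Agent.R350.Basic

set_option autoImplicit false
set_option linter.unusedSectionVars false
open Finset Matrix
open scoped Kronecker

namespace Crest.Agent.R350

variable {ι : Type} {I : Type} [Fintype I] [DecidableEq I]

/-- the phase oracle -/
def Dm (lab : I → Option ι) (x : ι → Bool) : Matrix I I ℝ :=
  diagonal fun e => (lab e).elim 1 fun i => sg (x i)

/-- families of orthogonal matrices made with `q` phase queries -/
def QF : ℕ → ((ι → Bool) → Matrix I I ℝ) → Prop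
  | 0, V => ∃ U : Matrix I I ℝ, Uᵀ * U = 1 ∧ ∀ x, V x = U
  | q + 1, V => ∃ U : Matrix I I ℝ, Uᵀ * U = 1 ∧ ∃ (lab : I → Option ι)
      (V' : (ι → Bool) → Matrix I I ℝ), QF q V' ∧ ∀ x, V x = U * Dm lab x * V' x

lemma orth_mul {A B : Matrix I I ℝ} (hA : Aᵀ * A = 1) (hB : Bᵀ * B = 1) :
    (A * B)ᵀ * (A * B) = 1 := by
  rw [transpose_mul, Matrix.mul_assoc, ← Matrix.mul_assoc Aᵀ, hA, Matrix.one_mul, hB]

lemma orth_diag {s : I → ℝ} (hs : ∀ e, s e * s e = 1) : (diagonal s)ᵀ * diagonal s = 1 := by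
  rw [diagonal_transpose, diagonal_mul_diagonal]; simp [hs]

lemma orth_Dm (lab : I → Option ι) (x : ι → Bool) : (Dm lab x)ᵀ * Dm lab x = 1 :=
  orth_diag fun e => by cases lab e <;> simp [sg_mul_self]

lemma QF.orth : ∀ {q : ℕ} {V : (ι → Bool) → Matrix I I ℝ}, QF q V → ∀ x, (V x)ᵀ * V x = 1
  | 0, _, ⟨_, hU, h⟩, x => by rw [h, hU]
  | _ + 1, _, ⟨_, hU, lab, _, hV, h⟩, x => by
    rw [h]; exact orth_mul (orth_mul hU (orth_Dm lab x)) (hV.orth x)

lemma QF.const {U : Matrix I I ℝ} (hU : Uᵀ * U = 1) : QF 0 (fun _ : ι → Bool => U) :=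
  ⟨U, hU, fun _ => rfl⟩

lemma QF.const_mul {A : Matrix I I ℝ} (hA : Aᵀ * A = 1) : ∀ {q : ℕ}
    {V : (ι → Bool) → Matrix I I ℝ}, QF q V → QF q (fun x => A * V x)
  | 0, _, ⟨U, hU, h⟩ => ⟨A * U, orth_mul hA hU, fun x => by simp only [h]⟩
  | _ + 1, _, ⟨U, hU, lab, V', hV, h⟩ => ⟨A * U, orth_mul hA hU, lab, V', hV, fun x => by
      simp only [h, Matrix.mul_assoc]⟩

lemma QF.mul {q' : ℕ} {W : (ι → Bool) → Matrix I I ℝ} (hW : QF q' W) : ∀ {q : ℕ}
    {V : (ι → Bool) → Matrix I I ℝ}, QF q V → QF (q' + q) (fun x => V x * W x)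
  | 0, _, ⟨U, hU, h⟩ => by simpa only [h, add_zero] using hW.const_mul hU
  | _ + 1, _, ⟨U, hU, lab, V', hV, h⟩ => ⟨U, hU, lab, _, hW.mul hV, fun x => by
      simp only [h, Matrix.mul_assoc]⟩

lemma QF.succ {q : ℕ} {V : (ι → Bool) → Matrix I I ℝ} (h : QF q V) : QF (q + 1) V :=
  ⟨1, by simp, fun _ => none, V, h, fun x => by simp [Dm]⟩

lemma QF.mono {q q' : ℕ} {V : (ι → Bool) → Matrix I I ℝ} (h : QF q V) (hq : q ≤ q') : QF q' V := by
  induction hq with
  | refl => exact h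
  | step _ ih => exact ih.succ

lemma QF.transpose : ∀ {q : ℕ} {V : (ι → Bool) → Matrix I I ℝ}, QF q V → QF q (fun x => (V x)ᵀ)
  | 0, _, ⟨U, hU, h⟩ => ⟨Uᵀ, by simpa using mul_eq_one_comm.1 hU, fun x => by simp only [h]⟩
  | q + 1, _, ⟨U, hU, lab, V', hV, h⟩ => by
    have h1 : QF 1 (fun x => Dm lab x * Uᵀ) :=
      ⟨1, by simp, lab, fun _ => Uᵀ, QF.const (by simpa using mul_eq_one_comm.1 hU), fun x => by simp⟩
    have := h1.mul hV.transpose
    rw [add_comm] at this
    simpa only [h, transpose_mul, Dm, diagonal_transpose] using this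

lemma QF.comap {ι' : Type} (g : ι → ι') : ∀ {q : ℕ} {V : (ι → Bool) → Matrix I I ℝ}, QF q V →
    QF q (fun x : ι' → Bool => V (fun i => x (g i)))
  | 0, _, ⟨U, hU, h⟩ => ⟨U, hU, fun _ => h _⟩
  | _ + 1, _, ⟨U, hU, lab, V', hV, h⟩ => ⟨U, hU, fun e => (lab e).map g, _, hV.comap g, fun x => by
      simp only [h, Dm]
      congr 3
      funext e
      cases lab e <;> rfl⟩

lemma QF.theta {E : Type} {J : E → Type} [∀ e, Fintype (J e)] [∀ e, DecidableEq (J e)]
    (Θ : (∀ e, Matrix (J e) (J e) ℝ) → Matrix I I ℝ)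
    (hmul : ∀ A B, Θ (fun e => A e * B e) = Θ A * Θ B)
    (horth : ∀ A, (∀ e, (A e)ᵀ * A e = 1) → (Θ A)ᵀ * Θ A = 1)
    (hD : ∀ lab : ∀ e, J e → Option ι, ∃ lab', ∀ x, Θ (fun e => Dm (lab e) x) = Dm lab' x) :
    ∀ {q : ℕ} {V : ∀ e, (ι → Bool) → Matrix (J e) (J e) ℝ}, (∀ e, QF q (V e)) →
      QF q (fun x => Θ (fun e => V e x))
  | 0, _, h => by
    choose U hU h using h
    exact ⟨Θ U, horth U hU, fun x => by simp only [h]⟩
  | _ + 1, _, h => by
    choose U hU lab V' hV h using h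
    obtain ⟨lab', hl⟩ := hD lab
    exact ⟨Θ U, horth U hU, lab', _, QF.theta Θ hmul horth hD hV, fun x => by
      simp only [h]; rw [hmul, hmul, hl]⟩

lemma QF.block' {E : Type} [Fintype E] [DecidableEq E] {J : E → Type} [∀ e, Fintype (J e)]
    [∀ e, DecidableEq (J e)] {q : ℕ} {V : ∀ e, (ι → Bool) → Matrix (J e) (J e) ℝ}
    (h : ∀ e, QF q (V e)) : QF q (fun x => blockDiagonal' (fun e => V e x)) :=
  QF.theta (fun A => blockDiagonal' A) (fun A B => blockDiagonal'_mul A B)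
    (fun A hA => by
      rw [blockDiagonal'_transpose, ← blockDiagonal'_mul]
      simp only [hA]
      exact blockDiagonal'_one)
    (fun lab => ⟨fun e => lab e.1 e.2, fun x => blockDiagonal'_diagonal _⟩) h

lemma QF.block {E J : Type} [Fintype E] [DecidableEq E] [Fintype J] [DecidableEq J] {q : ℕ}
    {V : E → (ι → Bool) → Matrix J J ℝ}
    (h : ∀ e, QF q (V e)) : QF q (fun x => blockDiagonal (fun e => V e x)) :=
  QF.theta (J := fun _ => J) (fun A => blockDiagonal A) (fun A B => blockDiagonal_mul A B)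
    (fun A hA => by
      rw [blockDiagonal_transpose, ← blockDiagonal_mul]
      simp only [hA]
      exact blockDiagonal_one)
    (fun lab => ⟨fun e => lab e.2 e.1, fun x => blockDiagonal_diagonal _⟩) h

lemma QF.reindex {J : Type} [Fintype J] [DecidableEq J] (e : J ≃ I) {q : ℕ}
    {V : (ι → Bool) → Matrix I I ℝ} (h : QF q V) : QF q (fun x => (V x).submatrix e e) :=
  QF.theta (E := Unit) (J := fun _ => I) (fun A => (A ()).submatrix e e)
    (fun A B => (submatrix_mul_equiv _ _ _ e _).symm)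
    (fun A hA => by rw [transpose_submatrix, submatrix_mul_equiv, hA, submatrix_one_equiv])
    (fun lab => ⟨fun j => lab () (e j), fun x => submatrix_diagonal_equiv _ _⟩)
    (V := fun _ => V) fun _ => h

lemma exists_orth_col (ψ : I → ℝ) (hψ : ∑ e, ψ e ^ 2 = 1) (e0 : I) :
    ∃ U : Matrix I I ℝ, Uᵀ * U = 1 ∧ ∀ e, U e e0 = ψ e := by
  set u : I → ℝ := Pi.single e0 1 - ψ with hu
  have h1 : u ⬝ᵥ u = 2 * (1 - ψ e0) := by
    simp only [hu, sub_dotProduct, dotProduct_sub, single_dotProduct, dotProduct_single]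
    simp only [dotProduct, ← sq, hψ]
    simp; ring
  by_cases h : u ⬝ᵥ u = 0
  · have := dotProduct_self_eq_zero.1 h
    refine ⟨1, by simp, fun e => ?_⟩
    have := congrFun this e
    simp only [hu, Pi.sub_apply, Pi.zero_apply, sub_eq_zero] at this
    rw [← this, one_apply, Pi.single_apply]
  · refine ⟨1 - (2 / (u ⬝ᵥ u)) • vecMulVec u u, ?_, fun e => ?_⟩
    · simp only [transpose_sub, transpose_one, transpose_smul, transpose_vecMulVec, sub_mul,
        mul_sub, Matrix.one_mul, Matrix.mul_one, smul_mul, Matrix.mul_smul, vecMulVec_mul_vecMulVec,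
        vecMulVec_smul, smul_smul]
      rw [show 2 / (u ⬝ᵥ u) * (2 / (u ⬝ᵥ u) * (u ⬝ᵥ u))
        = 2 / (u ⬝ᵥ u) + 2 / (u ⬝ᵥ u) by field_simp; ring, add_smul]
      abel
    · have h2 : u e0 = 1 - ψ e0 := by simp [hu]
      have h3 : 1 - ψ e0 ≠ 0 := fun e => h (by rw [h1, e, mul_zero])
      simp only [Matrix.sub_apply, Matrix.smul_apply, vecMulVec_apply, h1, h2, smul_eq_mul,
        one_apply]
      simp only [hu, Pi.sub_apply, Pi.single_apply]
      field_simp
      ring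

/-- distributions, as expectation functionals, that a quantum algorithm with `q` queries samples -/
def Rz {Y : Type} (q : ℕ) (E : (ι → Bool) → (Y → ℝ) → ℝ) : Prop :=
  ∃ (I : Type) (_ : Fintype I) (_ : DecidableEq I) (V : (ι → Bool) → Matrix I I ℝ) (e0 : I)
    (out : I → Y), QF q V ∧ ∀ x φ, E x φ = ∑ e, V x e e0 ^ 2 * φ (out e)

variable {Y Z : Type} {q q' : ℕ} {E : (ι → Bool) → (Y → ℝ) → ℝ}

lemma col_sq {A : Matrix I I ℝ} (hA : Aᵀ * A = 1) (e0 : I) : ∑ e, A e e0 ^ 2 = 1 := by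
  have := congrFun (congrFun hA e0) e0
  simpa [mul_apply, sq] using this

lemma Rz.le (h : Rz q E) (hq : q ≤ q') : Rz q' E := by
  obtain ⟨I, _, _, V, e0, out, hV, h⟩ := h
  exact ⟨I, _, _, V, e0, out, hV.mono hq, h⟩

lemma Rz.congr (h : Rz q E) {E' : (ι → Bool) → (Y → ℝ) → ℝ} (h' : ∀ x φ, E' x φ = E x φ) :
    Rz q E' := by
  rwa [show E' = E from funext fun x => funext (h' x)]

lemma Rz.mono (h : Rz q E) (x : ι → Bool) {φ ψ : Y → ℝ} (hφ : ∀ y, φ y ≤ ψ y) : E x φ ≤ E x ψ := by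
  obtain ⟨I, _, _, V, e0, out, -, h⟩ := h
  rw [h, h]
  exact sum_le_sum fun e _ => mul_le_mul_of_nonneg_left (hφ _) (sq_nonneg _)

lemma Rz.lin (h : Rz q E) (x : ι → Bool) (a b : ℝ) (φ : Y → ℝ) :
    E x (fun y => a + b * φ y) = a + b * E x φ := by
  obtain ⟨I, _, _, V, e0, out, hV, h⟩ := h
  simp only [h, mul_add, sum_add_distrib, ← sum_mul, col_sq (hV.orth x), mul_sum, one_mul]
  congr 1
  exact sum_congr rfl fun _ _ => by ring

lemma Rz.const (h : Rz q E) (x : ι → Bool) (a : ℝ) : E x (fun _ => a) = a := by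
  simpa using h.lin x a 0 (fun _ => 0)

lemma Rz.smul (h : Rz q E) (x : ι → Bool) (b : ℝ) (φ : Y → ℝ) :
    E x (fun y => b * φ y) = b * E x φ := by
  simpa using h.lin x 0 b φ

lemma Rz.add (h : Rz q E) (x : ι → Bool) (φ ψ : Y → ℝ) :
    E x (fun y => φ y + ψ y) = E x φ + E x ψ := by
  obtain ⟨I, _, _, V, e0, out, hV, h⟩ := h
  simp only [h, mul_add, sum_add_distrib]

lemma Rz.comap {ι' : Type} (g : ι → ι') (h : Rz q E) :
    Rz q (fun x : ι' → Bool => E (fun i => x (g i))) := by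
  obtain ⟨I, _, _, V, e0, out, hV, h⟩ := h
  exact ⟨I, _, _, _, e0, out, hV.comap g, fun x φ => h _ φ⟩

lemma Rz.map (h : Rz q E) (g : Y → Z) : Rz q (fun x φ => E x (fun y => φ (g y))) := by
  obtain ⟨I, _, _, V, e0, out, hV, h⟩ := h
  exact ⟨I, _, _, V, e0, g ∘ out, hV, fun x φ => h _ _⟩

lemma Rz.dist [Fintype Y] {p : Y → ℝ} (hp : IsP p) :
    Rz 0 (fun (_ : ι → Bool) (φ : Y → ℝ) => ∑ y, p y * φ y) := by
  classical
  obtain ⟨y0, -⟩ : (univ : Finset Y).Nonempty :=
    nonempty_of_sum_ne_zero (by rw [hp.2]; exact one_ne_zero)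
  obtain ⟨U, hU, h⟩ := exists_orth_col (fun y => √(p y))
    (by simp only [Real.sq_sqrt (hp.1 _), hp.2]) y0
  exact ⟨Y, _, _, fun _ => U, y0, id, QF.const hU, fun x φ => by
    simp only [h, Real.sq_sqrt (hp.1 _), id]⟩

lemma Rz.pure (y : Y) : Rz 0 (fun (_ : ι → Bool) (φ : Y → ℝ) => φ y) :=
  ⟨Unit, inferInstance, inferInstance, fun _ => 1, (), fun _ => y, QF.const (by simp),
    fun x φ => by simp⟩

lemma Rz.bind (h : Rz q E) {F : Y → (ι → Bool) → (Z → ℝ) → ℝ} (hF : ∀ y, Rz q' (F y)) :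
    Rz (q + q') (fun x φ => E x (fun y => F y x φ)) := by
  classical
  obtain ⟨I, _, _, V, e0, out, hV, h⟩ := h
  choose J fJ dJ W j0 o hW hF using fun e : I => hF (out e)
  let S := (e : I) × J e
  let s0 : S := ⟨e0, j0 e0⟩
  let P : I → Matrix S S ℝ := fun e => (1 : Matrix S S ℝ).submatrix id (Equiv.swap s0 ⟨e, j0 e⟩)
  have hP : ∀ e, (P e)ᵀ * P e = 1 := fun e => by
    simp only [P, transpose_submatrix, transpose_one]
    rw [← submatrix_mul _ _ _ id _ Function.bijective_id, Matrix.one_mul, submatrix_one_equiv]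
  have h2 : QF (0 + q') (fun x => blockDiagonal fun e =>
      blockDiagonal' (fun e' => W e' x) * P e) :=
    QF.block fun e => (QF.const (hP e)).mul (QF.block' hW)
  have h1 : QF q (fun x => (blockDiagonal fun _ : S => V x).submatrix
      (Equiv.prodComm S I) (Equiv.prodComm S I)) := (QF.block fun _ => hV).reindex _
  refine ⟨S × I, inferInstance, inferInstance, _, (s0, e0), fun k => o k.1.1 k.1.2,
    by simpa only [zero_add] using h1.mul h2, fun x φ => ?_⟩
  beta_reduce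
  rw [h, Fintype.sum_prod_type, sum_comm]
  refine sum_congr rfl fun e _ => ?_
  have key : ∀ s : S, ((blockDiagonal fun e => blockDiagonal' (fun e' => W e' x) * P e) *
      (blockDiagonal fun _ : S => V x).submatrix (Equiv.prodComm S I) (Equiv.prodComm S I))
      (s, e) (s0, e0) = blockDiagonal' (fun e' => W e' x) s ⟨e, j0 e⟩ * V x e e0 := by
    intro s
    rw [mul_apply, Fintype.sum_prod_type]
    simp only [blockDiagonal_apply, submatrix_apply, Equiv.prodComm_apply, Prod.swap_prod_mk,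
      ite_mul, zero_mul, sum_ite_eq, mem_univ, if_true, mul_ite, mul_zero]
    rw [sum_eq_single s0 (fun s' _ hs => by simp [hs]) (by simp)]
    simp [P, mul_apply, one_apply]
  simp only [key]
  rw [hF, mul_sum, Fintype.sum_sigma, sum_eq_single e]
  · exact sum_congr rfl fun j _ => by simp only [blockDiagonal'_apply_eq]; ring
  · intro e' _ he
    exact sum_eq_zero fun j _ => by simp [blockDiagonal'_apply_ne _ _ _ he]
  · simp

lemma Rz.amp (h : Rz q E) (G : Y → Bool) : Rz (3 * q) (fun x φ => E x (fun y =>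
    (if G y then (3 - 4 * E x (fun y => ind (G y))) ^ 2
      else (1 - 4 * E x (fun y => ind (G y))) ^ 2) * φ y)) := by
  obtain ⟨I, _, _, V, e0, out, hV, h⟩ := h
  let R0 : Matrix I I ℝ := diagonal fun e => if e = e0 then -1 else 1
  let RG : Matrix I I ℝ := diagonal fun e => sg (G (out e))
  have h0 : R0ᵀ * R0 = 1 := orth_diag fun e => by split_ifs <;> simp
  have hG : RGᵀ * RG = 1 := orth_diag fun e => sg_mul_self _
  have h1 := (((hV.const_mul hG).mul hV.transpose).const_mul h0).mul hV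
  refine ⟨I, _, _, _, e0, out, h1.mono (by omega), fun x φ => ?_⟩
  set a := E x (fun y => ind (G y)) with ha
  have e1 : R0 = 1 - (2 : ℝ) • vecMulVec (Pi.single e0 1) (Pi.single e0 1) := by
    ext i j
    simp only [R0, diagonal_apply, Matrix.sub_apply, one_apply, Matrix.smul_apply,
      vecMulVec_apply, Pi.single_apply]
    split_ifs <;> simp_all <;> norm_num
  have e2 : ((V x)ᵀ * (RG * V x)) e0 e0 = 1 - 2 * a := by
    rw [ha, h, ← col_sq (hV.orth x) e0, mul_sum, ← sum_sub_distrib, mul_apply]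
    refine sum_congr rfl fun e _ => ?_
    simp only [RG, diagonal_mul, transpose_apply]
    cases G (out e) <;> simp <;> ring
  have key : ∀ e, (V x * (R0 * ((V x)ᵀ * (RG * V x)))) e e0
      = (sg (G (out e)) - 2 * (1 - 2 * a)) * V x e e0 := by
    intro e
    rw [e1, Matrix.sub_mul, Matrix.one_mul, Matrix.mul_sub, ← Matrix.mul_assoc,
      mul_eq_one_comm.1 (hV.orth x), Matrix.one_mul, ← e2]
    generalize (V x)ᵀ * (RG * V x) = M
    simp [RG, mul_apply, vecMulVec_apply, Pi.single_apply, diagonal_apply]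
    ring
  beta_reduce
  rw [← ha, h]
  refine sum_congr rfl fun e _ => ?_
  rw [key]
  cases G (out e) <;> simp <;> ring

lemma Rz.read (i : ι) : Rz 1 (fun (x : ι → Bool) (φ : Bool → ℝ) => φ (x i)) := by
  set s : ℝ := √2⁻¹
  have hs : s * s = 2⁻¹ := Real.mul_self_sqrt (by norm_num)
  let H : Matrix Bool Bool ℝ := Matrix.of fun a b => s * sg (a && b)
  have hH : Hᵀ * H = 1 := by
    ext a b
    cases a <;> cases b <;> simp [H, mul_apply, hs] <;> norm_num
  refine ⟨Bool, inferInstance, inferInstance,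
    fun x => H * Dm (fun b => if b then some i else none) x * H, false, id,
    ⟨H, hH, _, _, QF.const hH, fun x => rfl⟩, fun x φ => ?_⟩
  cases hx : x i <;> simp [H, Dm, mul_apply, diagonal_apply, hx, hs] <;> norm_num

end Crest.Agent.R350
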